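import Crest.Agent.X212.Sm10.Res

/-!
# Row 212, GEO engine (helper56): E-BL, the convex combination of two families of metrics
-/

set_option autoImplicit false
set_option linter.unusedSectionVars false
noncomputable section
open scoped Manifold ContDiff Topology InnerProductSpace
open MeasureTheory Set Function Filter

namespace Crest.Agent.X212.Emo56
open An Cyf70 Sw Flo2 Geo28 Met55 Sw87.Mo Sm10.Rs
open Prm93 (JS JAt)
open Pj41 (MSm)

variable {κ : Type} [Fintype κ] [DecidableEq κ] {μ : Type} [Fintype μ] [DecidableEq μ]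
  {X : M4} {k : ℕ} {τ : MT κ X}

/-- the blended frame -/
def blF (e w : Option κ → VF X.I X.M) (s : ℝ) : Option κ → VF X.I X.M :=
  eF e (fun _ => 1) (fun b _ => cond b s (1 - s)) fun b => cond b w e

section pt
variable {e e' w w' : Option κ → VF X.I X.M} {s : ℝ} {x : X.M}

theorem blF_ok (hs : s ∈ Icc (0 : ℝ) 1) (h0 : Sp (atx e x)) (h1 : Sp (atx w x)) :
    EOk e (fun _ => 1) (fun b _ => cond b s (1 - s)) (fun b => cond b w e) x where
  sp := h0
  adm := Adm.one
  nn b := by cases b; exacts [sub_nonneg.2 hs.2, hs.1]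
  ne := by
    by_cases h : s = 0
    exacts [⟨false, by simp [h]⟩, ⟨true, h⟩]
  spw b _ := by cases b <;> assumption

theorem blF_eq (hs : s ∈ Icc (0 : ℝ) 1) (h0 : Sp (atx e x)) (h1 : Sp (atx w x))
    (h : s ≠ 0 → Co (atx e x) (atx w x)) (a : Option κ) : blF e w s a x = e a x :=
  (blF_ok hs h0 h1).eF_eq (fun b hb => by cases b; exacts [.refl _, h hb]) (by simp) rfl a

theorem blF_congr (h0 : ∀ a, e' a x = e a x) (h1 : s ≠ 0 → ∀ a, w' a x = w a x) (a : Option κ) :
    blF e' w' s a x = blF e w s a x :=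
  eF_congr h0 rfl (fun _ => rfl) (fun b hb => by
    cases b
    · exact (show atx e' x = atx e x from funext h0) ▸ .refl _
    · exact (show atx w' x = atx w x from funext (h1 hb)) ▸ .refl _) a

end pt

/-- **E-BL** -/
theorem bl : BlStmt κ μ := by
  intro X τ k β w s hs h01 hr hL hw hsp hwr hco hloc
  have ok := fun t x => blF_ok (h01 t) (β.sp t x) (hsp t x)
  have hl : ∀ t x (b : Bool), (∀ᶠ z : Tk k × X.M in 𝓝 (t, x), cond b (s z.1) (1 - s z.1) = 0) ∨
      (JAt X.I (fun t _ => cond b (s t) (1 - s t)) t x ∧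
        ∀ a, VJ X.I (fun t => cond b (w t) (β.e t) a) t x) := fun t x b => .inr (by
    cases b
    exacts [⟨JAt.of_par (contDiff_const.sub hs).contDiffAt, fun a => β.sm a t x⟩,
      ⟨JAt.of_par hs.contDiffAt, fun a => hw a t x⟩])
  have ho : ∀ t, Int54.oc (blF (β.e t) (w t) (s t)) (Int54.volF X.o (blF (β.e t) (w t) (s t))) =
      Int54.oc (β.e 0) (Int54.volF X.o (β.e 0)) := fun t => by
    rw [← β.o t]
    funext a b c d x
    exact (ok t x).oc_eF X.X.dim X.o a b c d
  let β' : MB τ k := {
    e t := blF (β.e t) (w t) (s t)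
    wl := β.wl
    sm a t x := vJ_eF (r := β.e) (S := fun _ _ => 1) (l := fun t b _ => cond b (s t) (1 - s t))
      (w := fun t b => cond b (w t) (β.e t)) (ok t x) (fun a => β.sm a t x) (MSm.const 1)
      (.of_forall fun _ => Matrix.transpose_one) (hl t x) a
    sp t x := (ok t x).sp_eF
    P t x := ((ok t x).fP_eF.trans (β.P t x)).trans (ok 0 x).fP_eF.symm
    o t := (ho t).trans (ho 0).symm
    inj := β.inj
    fin := β.fin
    lit t i hi a x hx := (β.lit t i hi a x hx).trans (blF_eq (h01 t) (β.sp t _) (hsp t _)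
      (fun h => hco t i hi h _ (NB.k_mem (by norm_num) hx)) a).symm
    loc c i hi t v p q x hx a := by
      have e : s (update t c v) = s t := hL c (by rw [show β.wl c = some i from hi]; simp) t v p q
      rw [e]
      exact blF_congr (β.loc c i hi t v p q x hx) (fun h => hloc c i hi t v p q h x hx) a
    ret t := by
      funext a x
      rw [← hr t]
      exact blF_congr (fun a => by rw [← β.ret t]) (fun h a => by rw [← hwr t h]) a }
  refine ⟨β', rfl, fun t h => ?_, fun t x p q => ?_, fun c f m η hf sf sm mJ mp h0 jc tst => ?_⟩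
  · funext a x
    exact blF_eq (h01 t) (β.sp t x) (hsp t x) (fun h' => (h' h).elim) a
  · have := (ok t x).hb_eF rfl p q
    simp only [hb_one, Fintype.sum_bool, cond] at this
    exact this.trans (add_comm _ _)
  have : SigmaCompactSpace X.M := Int54.sigmaCompact (I := X.I) _
  have p := pm_pp (β := β) (β' := β') (ho 0) c.m
  have z : ∀ {W : Type} [AddCommGroup W] [Module ℝ W] {t} {a b : W}, a = 0 → (s t ≠ 0 → b = 0) →
      (1 - s t) • a + s t • b = 0 := fun {_ _ _ t _ _} ha hb => by
    by_cases h : s t = 0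
    · simp [ha, h]
    · simp [ha, hb h]
  refine ⟨{
    toMM := c.toMM, mon := c.mon.congr fun x _ => (ok 0 x).fP_eF
    fo := fun t => (1 - s t) • c.fo t + s t • f t
    cs := fun t => ((c.cs t).smul _).add ((hf t).smul _)
    sf := js_fr (β'.fr 0) (β.fr 0) fun t _ x =>
      (js_comb hs c.sf sf t trivial x).congr (.of_forall fun z => cmp_comb _ _ _ _ _ _)
    f0 := fun t i a x b => z (c.f0 t i a x b) fun h => (h0 t i a h x b).1
    mc := fun t => (1 - s t) • c.mc t + s t • m t
    smc := js_comb hs c.smc sm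
    mJ := fun t x => by simp [mul_add, add_mul, c.mJ, mJ]
    mp := fun t x => by rw [p.1, p.2]; simp [mul_add, add_mul, c.mp, mp]
    m0 := fun t i a x b => z (c.m0 t i a x b) fun h => (h0 t i a h x b).2
    η := fun t => (1 - s t) • c.η t + s t • η t
    jc := fun j => jc_comb hs (c.jc j) (jc j)
    tst := fun t j =>
      have q := tst_comb (c.tst t j) (tst t j) (1 - s t) (s t)
      ⟨q.sm, q.cpt, fun y => by rw [p.2]; exact q.pos y⟩ }, rfl, fun d h => ?_, fun _ => ⟨rfl, rfl, rfl⟩⟩
  refine Gm56.Rp.dfm h (fun x => ?_) fun x => (ok 0 x).adm_eH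
  exact ((mJ_eH (r := β.e) (S := fun _ _ => 1) (l := fun t b _ => cond b (s t) (1 - s t))
    (w := fun t b => cond b (w t) (β.e t)) (β.sp 0 x) (fun a => β.sm a 0 x) (MSm.const 1)
    (hl 0 x)).right :)

end Crest.Agent.X212.Emo56
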