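import Crest.Agent.X212.Emo56.Iso
import Crest.Agent.X212.Pen22.Cl

/-!
# Row 212, GEO engine (helper56): classes and forms of gluings (E-CGL, E-FIN)
-/

set_option autoImplicit false
set_option linter.unusedSectionVars false
noncomputable section
open scoped Manifold ContDiff Topology
open Set Function Filter

namespace Crest.Agent.X212.Emo56
open An Geo28 Met55 Sw87.Mo Pen22
open Bor5.T (O3 Pb)
open Lab56 (C8)
open Gm56 (Rp LE)
open Rod53 (ld_pd)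
open Dr59 (pm psh)

variable {κ : Type} [Fintype κ] [DecidableEq κ] {μ : Type} [Fintype μ] [DecidableEq μ]

/-- a class that is the pull-back off a part of an end is the pull-back -/
theorem pb_trunc {A : O3} {X X' : M4} {J J' : Set ℝ} (k : Nc A X J) (l : PD X X') {d : X.L} {d' : X'.L}
    (ex : ∃ d : X.L, Pb l l.source d' d) (hs : k.tm ⁻¹' J' ⊆ l.source) (hJ : IsOpen J) (hc : OrdConnected J)
    (hJ' : IsOpen J') (hc' : OrdConnected J') (hn : (J' ∩ J).Nonempty) (hu : J' ∪ J = univ)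
    (h : Pb l (k.tm ⁻¹' J') d' d) : Pb l l.source d' d := by
  obtain ⟨c, q⟩ := ex
  rwa [Mv17.trunc_inj k.k (Mv17.nc_src k) (J' := J' ∩ J) (fun z hz => by
      rw [mem_preimage, k.tmk z hz]; exact ⟨fun a => ⟨a, (Mv17.nc_src k).le hz⟩, fun a => a.1⟩)
    inter_subset_right (hJ'.preimage k.cont) (by rw [k.tgt, ← preimage_union, hu, preimage_univ]) hJ hc
    (hJ'.inter hJ) (hc'.inter hc) hn (eo_of_pb h (Rfl19.pb_mono q hs))]

theorem pb_le {X X' : M4} (l : PD X X') {W : Set X.M} (hW : IsOpen W) (hs : W ⊆ l.source)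
    {e : Option κ → VF X.I X.M} {e' : Option κ → VF X'.I X'.M} {m : C8 X.M (Option κ) μ}
    {m' : C8 X'.M (Option κ) μ} {d d'} (h : Rp e m d) (h' : Rp e' m' d')
    (hr : ∀ x ∈ W, ∀ a, mfderiv X.I X'.I l x (e a x) = e' a (l x)) (q : LE m (m'.comp l) W) :
    Pb l W d' d :=
  (Gm56.pb_iff_ci hW h' h (fun _ hy => ld_pd l (hs hy)) hr).2
    ⟨_, q.symm.ci (q.on hW (h.on.mono (subset_univ _)))⟩

theorem eq_of_pm {X X' : M4} (l : PD X X') {f f' : X'.Fm} {p : X.M} (hp : p ∈ l.source)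
    (h : pm X.I X'.I l f p = pm X.I X'.I l f' p) : f (l p) = f' (l p) := by
  have k := fun f : X'.Fm => Dr59.pm_psh l.symm (e := f) (l.map_source hp)
  have e : l.symm (l p) = p := l.left_inv hp
  rw [← k f, ← k f']
  refine Dr59.pm_congr_right ?_
  rw [e, psh, psh, indicator_of_mem (show p ∈ l.symm.target from hp),
    indicator_of_mem (show p ∈ l.symm.target from hp)]
  exact h

variable (κ μ) in
/-- **E-CGL** -/
theorem cgl : CglStmt κ μ where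
  cl γ _ _ _ _ _ _ _ ι₁ ι₂ _ _ _ t _ _ _ F M h h₁ h₂ :=
    have s₁ : γ.k₁.tm ⁻¹' Iio (3 / 2) ⊆ γ.g.l.source := fun _ k => (mem_l γ.g).2 (lt_trans k (by norm_num))
    have s₂ : γ.k₂.tm ⁻¹' Ioi (-(3 / 2)) ⊆ γ.g.r.source := fun _ k =>
      (mem_r γ.g).2 (lt_trans (by norm_num) k)
    ⟨pb_trunc γ.k₁ γ.g.l (Mv17.g3_l γ.g _).exists s₁ isOpen_Ioi ordConnected_Ioi isOpen_Iio
      ordConnected_Iio ⟨1, by norm_num, by norm_num⟩ (Iio_union_Ioi_of_lt (by norm_num))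
      (pb_le _ (isOpen_Iio.preimage γ.k₁.cont) s₁ (cl_at h₁ (t ∘ ι₁)) (cl_at h t) F.l M.l),
    pb_trunc γ.k₂ γ.g.r (Mv17.g3_r γ.g _).exists s₂ isOpen_Iio ordConnected_Iio isOpen_Ioi
      ordConnected_Ioi ⟨-1, by norm_num, by norm_num⟩
      (by rw [union_comm, Iio_union_Ioi_of_lt (by norm_num)])
      (pb_le _ (isOpen_Ioi.preimage γ.k₂.cont) s₂ (cl_at h₂ (t ∘ ι₂)) (cl_at h t) F.r M.r)⟩
  fm g f f' _ _ h h' := funext fun x => by
    rcases lt_or_ge (g.n.tm x) 3 with k | k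
    · obtain ⟨p, hp, rfl⟩ := (img_l g three_pos (by norm_num)).ge k
      exact eq_of_pm g.l ((mem_l g).2 (lt_trans hp (by norm_num))) ((h.1 p hp).trans (h'.1 p hp).symm)
    · obtain ⟨p, hp, rfl⟩ := (img_r g three_pos (by norm_num)).ge (show 4 - 3 < g.n.tm x by linarith)
      exact eq_of_pm g.r ((mem_r g).2 (lt_trans (by norm_num) hp)) ((h.2 p hp).trans (h'.2 p hp).symm)

/-- **E-FIN** -/
theorem fing : FingStmt := by
  rintro a c B T₁ T₂ T g S₁ S₂ ⟨D₁, a₁, b₁⟩ ⟨D₂, a₂, b₂⟩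
  classical
  refine ⟨D₁.image (psh g.l) ∪ D₂.image (psh g.r), fun e he => ?_, fun C => ?_⟩
  · rcases Finset.mem_union.1 he with k | k <;> obtain ⟨y, hy, rfl⟩ := Finset.mem_image.1 k
    exacts [(pL g ⟨y, a₁ y hy⟩).2, (pR g ⟨y, a₂ y hy⟩).2]
  refine ((b₁ C).biUnion fun d₁ _ => (b₂ C).biUnion fun d₂ _ => Subsingleton.finite
    (s := {d | g.Rl d d₁ ∧ g.Rr d d₂}) fun d h d' h' =>
      Mv17.clsStmt.mvu g.toGl3 d d' d₁ d₂ h.1 h.2 h'.1 h'.2).subset ?_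
  rintro d ⟨⟨d₁, s₁, d₂, s₂, h₁, h₂⟩, y, hy, k⟩
  refine mem_biUnion (x := d₁) ⟨s₁, _, (Nvg56.exists_cur d₁).choose_spec, fun e he => ?_⟩
    (mem_biUnion (x := d₂) ⟨s₂, _, (Nvg56.exists_cur d₂).choose_spec, fun e he => ?_⟩ ⟨h₁, h₂⟩)
  · exact (congrArg abs ((pv_eq hy (pL g ⟨e, a₁ e he⟩).2).trans (V_L g h₁ ⟨e, a₁ e he⟩))).ge.trans
      (k _ (Finset.mem_union_left _ (Finset.mem_image_of_mem _ he)))
  · exact (congrArg abs ((pv_eq hy (pR g ⟨e, a₂ e he⟩).2).trans (V_R g h₂ ⟨e, a₂ e he⟩))).ge.trans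
      (k _ (Finset.mem_union_right _ (Finset.mem_image_of_mem _ he)))

end Crest.Agent.X212.Emo56
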