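import Crest.Agent.X212.Sw87.MoP

/-!
# Row 212, GEO engine (helper56): the doubles and the cells at the cap `B` (P-DD, P-KD)
-/

set_option autoImplicit false
set_option linter.unusedSectionVars false
noncomputable section
open scoped Manifold ContDiff Topology InnerProductSpace
open MeasureTheory Set Function Filter

namespace Crest.Agent.X212.Emo56
open An Cyf70 Sw Flo2 Geo28 Met55 Sw87.Mo Sw87.Mo.Ends Pen22
open Bor5.T (O3 Q3 Pb Cur)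
open Dr59 (Cs pm)

variable {mk : Mk κ0 L0 ν0} {X X₁ X₂ : M4} {τ : MT κ0 X} {τ₁ : MT κ0 X₁} {τ₂ : MT κ0 X₂} {k : ℕ}
  {𝒯 : Set TY} {𝓔 : Ends mk}

theorem map_rel {N N' W : Type*} {r : N → N' → Prop} {p p'} (h : Option.Rel r p p') {f : N → W} {f' : N' → W}
    (e : ∀ j i, r j i → f j = f' i) : p'.map f' = p.map f := by
  cases h with
  | none => rfl
  | some k => exact congrArg some (e _ _ k).symm

theorem gc_mc0 {γ : TG τ τ₁ τ₂} {k₁ k₂} {β : MB τ k} {β₁ : MB τ₁ k₁} {β₂ : MB τ₂ k₂} {ι₁ ι₂} {c : MC μ0 β}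
    {c₁ : MC μ0 β₁} {c₂ : MC μ0 β₂} {t} (h : γ.GC ι₁ ι₂ c c₁ c₂ t) (m₁ : c₁.mc = 0) (m₂ : c₂.mc = 0) :
    c.mc t = 0 := funext fun x => by
  rcases lt_or_ge (γ.g.n.tm x) (3 / 2) with a | a
  · obtain ⟨p, hp, rfl⟩ := (img_l γ.g (by norm_num) (by norm_num)).ge a
    rw [h.l p hp, m₁]; rfl
  rcases lt_or_ge (4 - 3 / 2) (γ.g.n.tm x) with b | b
  · obtain ⟨p, hp, rfl⟩ := (img_r γ.g (by norm_num) (by norm_num)).ge b
    rw [h.r p hp, m₂]; rfl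
  refine h.n x ?_
  rw [NB.U, γ.tm_i, γ.s_i]
  exact jm_none.2 ⟨by linarith, by linarith⟩

/-- the frames of a single wall -/
structure W1 (γ : TG τ τ₁ τ₂) (β₁ : MB τ₁ 0) (β₂ : MB τ₂ 0) (β : MB τ 1) (β₀ : MB τ 0) (Λ : γ.LR) : Prop where
  gb : γ.GB β β₁ β₂ 0 e0 e0
  gf : ∀ u, γ.GF β β₁ β₂ 0 e0 e0 u
  ep : β₀.e 0 = β.e 0
  c : ∀ (c₁ : MC μ0 β₁) (c₂ : MC μ0 β₂), c₁.ty γ.j₁ = c₂.ty γ.j₂ → c₁.mc = 0 → c₂.mc = 0 →
    (γ.cap = false → (c₁.ty γ.j₁).1.kd = .qhs) → ∃ (c : MC μ0 β) (c₀ : MC μ0 β₀),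
    γ.GM c.toMM c₁.toMM c₂.toMM ∧ c₀.toMM = c.toMM ∧ (∀ d, c.Cl d → c₀.Cl d) ∧ c.mc = 0 ∧ c₀.mc = 0 ∧
    (∀ f, γ.g.Fm f (c₁.fo 0) (c₂.fo 0) → (∀ u, c₀.fo u = f) ∧ ∀ u, c.fo u = f) ∧
    FcM c c₀ 0 0 e0 (.refl _) ∧ WlM γ Λ c c₁ c₂ 0 e0 e0

theorem exists_w1 (H : Lf) (γ : TG τ τ₁ τ₂) (β₁ : MB τ₁ 0) (β₂ : MB τ₂ 0) :
    ∃ β β₀ Λ, W1 γ β₁ β₂ β β₀ Λ := by
  obtain ⟨β, b, f⟩ := H.glu.b γ β₁ β₂ (0 : Fin 1) _ _ bij0 (fun a => a.elim0) fun a => a.elim0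
  obtain ⟨β₀, ep, h0⟩ := res0 H β
  obtain ⟨Λ⟩ := H.lr γ
  refine ⟨β, β₀, Λ, b, f, ep, fun c₁ c₂ ty m₁ m₂ q => ?_⟩
  obtain ⟨c, m, k⟩ := H.glu.c γ _ _ _ c₁ c₂ b f ty
  obtain ⟨c₀, m0, d0, s0, f0⟩ := h0 c
  have mc : c.mc = 0 := funext fun t => gc_mc0 (k t) m₁ m₂
  have fo : ∀ f, γ.g.Fm f (c₁.fo 0) (c₂.fo 0) → ∀ u, c.fo u = f := fun f h u =>
    H.cgl.fm _ _ _ _ _ (by simpa only [t0 (u ∘ _)] using (k u).fo) h
  exact ⟨c, c₀, m, m0, d0, mc, funext fun t => t0 t ▸ s0.mc.trans (congrFun mc 0),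
    fun f h => ⟨fun u => t0 u ▸ s0.fo.trans (fo f h 0), fo f h⟩, ⟨0, f0⟩, b.wl,
    H.wal γ Λ _ _ _ c c₁ c₂ b m (fun t _ => ⟨f t, k t⟩) fun e =>
      (congrArg (fun T : TY => T.1.kd) m.t₁).symm.trans (q e)⟩

/-- roots, when all ends and walls are rational homology spheres -/
theorem fmQ (g : Gn mk) {β : MB τ k} {I} (F : FM 𝒯 β I) (S : I → Set X.Fm) (ts : TS mk 𝒯) (k2 : k ≤ 2)
    (nc : τ.nc = 0) (p3 : τ.p3 = none) (q : ∀ i j, β.Act j → ((F.c i).ec j).kd = .qhs)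
    (fin : (⋃ i, S i).Finite) (hl : ∀ i, Hl (F.c i) (S i))
    (ps : τ.pin = none → ∀ i, ∀ f ∈ convexHull ℝ (S i), X.Ps (F.d i) ((2 : ℝ) • f)) :
    ∃ C, ∀ i, Ro mk ((F.c i).gc (ens0 𝒯 τ) C) := by
  obtain ⟨⟨_, C, ro⟩, rfl⟩ := g.fm F S ts k2 nc (fun e => (e p3).elim)
    (fun i j e => q i j (.inl (τ.of_port (.inr (.inl e))))) (.inl fun i j e => q i j (.inl (τ.of_port (.inl e))))
    (fun i a j e n => (n (q i j (.inr ⟨a, e⟩))).elim) (fun i j e => nomatch p3.symm.trans e) fin hl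
    fun e i => ⟨ps e i, fun j a n => nomatch n.symm.trans (q i j a)⟩
  exact ⟨C, ro⟩

theorem hl1 {β : MB τ k} {c : MC μ0 β} {f} (h : ∀ u, c.fo u = f) : Hl c {f} :=
  ⟨finite_singleton _, fun _ e => e ▸ h 0 ▸ c.cs 0, fun t _ => subset_convexHull _ _ (h t)⟩

theorem end_q {A B : EE mk} (qa : A.Q) (qb : B.Q) {M : MM μ0 τ} {s t} (hs : τ.pin.map M.ty = A.ty s)
    (ht : τ.pout.map M.ty = B.ty t) (p3 : τ.p3 = none) {j} (e : (τ.nb j).s ≠ none) : (M.ec j).kd = .qhs := by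
  rcases τ.port e with e | e | e
  exacts [kd_of hs qa e, kd_of ht qb e, nomatch p3.symm.trans e]

theorem mt_rf {J} {f : X.M → X.M} : ∀ {a : Option O3} (k : Ec a X J), (∀ p, k.tm p ∈ J → f p = p) →
    Ec.Mt (1 / 2) f k k
  | none, _, _ => trivial
  | some _, k, h => fun y _ ht _ => h _ (mem_of_eq_of_mem (tm_k k y ht) ht)

/-- a reflection as an isomorphism -/
def rfIso {a b} {T : Pm a b none} (ρ : Rf T) (nb : T.nb = 0) : T.Iso T :=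
  ⟨ρ.toDif, mt_rf _ fun p h => ρ.id p fun m => m.1.not_gt h, mt_rf _ fun p h => ρ.id p fun m => m.2.1.not_gt h,
    trivial, rfl, fun j => (j.cast nb).elim0⟩

/-- **the reflection paths of a family of points** -/
theorem exists_if (g : Gn mk) {a c : Option Q3} {T : Pm (vo a) (vo c) none} {τ : MT κ0 T.X}
    (o : On T τ (𝓔.go a) (𝓔.go c) ()) (nb : T.nb = 0) {β : MB τ 0} {I}
    (p : PF 𝒯 (𝓔.en a) (𝓔.en c) none β I) (ts : TS mk 𝒯) (lb : p.Lb T) (ρ : Rf T) (r : I → I)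
    (hr : ∀ x, p.d (r x) = ρ.r (p.d x)) {η : I → T.Fm} (fo : ∀ x, (p.c x).fo 0 = (1 / 2 : ℝ) • η x)
    (fin : (range η).Finite) (sg : a = none → ∀ x, T.X.Seg (p.d x) (η x) (pm T.X.I T.X.I ρ.φ (η (r x))))
    (inj : Injective p.d) : ∃ β₁, Bl μ0 β β ρ.toDif β₁ ∧ ∃ Γ : IF p r ρ.toDif β₁, Γ.Prp id 0 := by
  have H := g.lf
  have h := ei_iso o o (rfIso ρ nb)
  have p3 : τ.p3 = none := Option.map_eq_none_iff.1 o.p3
  have q := fun x j => end_q (en_q a) (en_q c) (p.hs x) (p.ht x) p3 (j := j)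
  obtain ⟨β₁, B⟩ := bl H.res H.bl H.pb β β ρ.toDif h
  have es : ∀ x, p.s (r x) = p.s x := fun x =>
    let ⟨s, k⟩ := ex_cl (s := false) T.ki (p.d x)
    ((lb _).1 s (hr x ▸ (rf_ki ρ _ s).1 k)).uq ((lb x).1 s k)
  have et : ∀ x, p.t (r x) = p.t x := fun x =>
    let ⟨s, k⟩ := ex_cl (s := true) T.ko (p.d x)
    ((lb _).2 s (hr x ▸ (rf_ko ρ _ s).1 k)).uq ((lb x).2 s k)
  choose c₁ n im _ using fun x => B.im H.pz H.pb H.iso H.trp h (p.c x) (p.c (r x)) (by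
    rintro i' i ⟨_ | _ | _, k, k'⟩
    · exact nomatch p3.symm.trans k
    · exact Option.some.inj (((congrArg _ k).symm.trans (p.hs _)).trans
        (es x ▸ (p.hs x).symm.trans (congrArg _ k')))
    · exact Option.some.inj (((congrArg _ k).symm.trans (p.ht _)).trans
        (et x ▸ (p.ht x).symm.trans (congrArg _ k'))))
    (p.cl x) (p.cl (r x)) (hr x ▸ ρ.pb _) (fun i => lgE (ts.ok _ (p.ty _ i)))
    fun i e => ((ts.ok _ (p.ty _ i)).qhs (q _ i (e ▸ nofun))).2.1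
  have nc := o.nc.trans nb
  let F : FM 𝒯 β₁ I := ⟨c₁, p.d, fun x => (im x).cl _ (p.cl x),
    fun x => (im x).mc (congrFun (p.mc x) 0) (congrFun (p.mc _) 0) nc, fun x => (im x).M ▸ p.ty x⟩
  obtain ⟨C, ro⟩ := fmQ g F (fun x => {(p.c x).fo 0, pm _ _ ρ.φ ((p.c (r x)).fo 0)}) ts one_le_two nc p3
    (fun x j a => (im x).M ▸ q x j (a.resolve_right fun ⟨b, e⟩ => nomatch (B.wl b).symm.trans e))
    (((fin.image ((1 / 2 : ℝ) • ·)).union (fin.image fun f => pm _ _ ρ.φ ((1 / 2 : ℝ) • f))).subset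
      (iUnion_subset fun x => by
        rintro _ (rfl | rfl)
        exacts [.inl ⟨_, ⟨x, rfl⟩, (fo x).symm⟩, .inr ⟨_, ⟨r x, rfl⟩, by rw [fo]⟩]))
    (fun x => ⟨toFinite _, by
      rintro _ (rfl | rfl)
      exacts [(p.c x).cs 0, (H.pb.f (p.c (r x)) ρ.toDif _ (β.fr 0)).1 0], fun t _ => (im x).hull t⟩)
    fun e x f hf => by
      rw [convexHull_pair, segment_eq_image] at hf
      obtain ⟨s, k, rfl⟩ := hf
      convert sg (go_none ((congrArg _ e).symm.trans o.pin)) x s k using 1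
      rw [fo, fo, Dr59.pm_smul]
      module
  exact ⟨β₁, B, ⟨⟨F, C, ro⟩, n, im, rfl⟩,
    g.prp T ⟨F, C, ro⟩ o.toOnP (fun b i e => nomatch (B.wl b).symm.trans e) inj⟩

variable (mk) in
/-- **P-DD** -/
theorem dd : DdStmt mk := by
  intro G 𝓔 𝒯 a c B T₁ T₂ T g ρ η I₁ I₂ η₁ η₂ F₁ F₂ r ts nb hr f₁ f₂ fm sg
  have H := G.lf
  obtain ⟨τ, ι, o, hι, sj⟩ := exists_mt T (𝓔.go a) (𝓔.go c) () (go_std a) (go_std c) trivial
    (fun _ : Unit => ⟨(𝓔.q B).g.et, none, g.n⟩) (fun _ => rfl) (fun _ => (𝓔.q B).std)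
    Subsingleton.pairwise (fun _ => Cm.core g) fun j y _ => Cm.off g j y
  let t : CT (𝓔.go a) (𝓔.q B).g (𝓔.go c) g F₁.τ F₂.τ τ :=
    ⟨F₁.o, F₂.o, o, ι (), hι (), fun i ne k => (ne (sj i k).choose_spec).elim⟩
  obtain ⟨βH, βp, Λ, W⟩ := exists_w1 H t.γ F₁.β F₂.β
  have pt : F₁.τ.pout = some t.γ.j₁ ∧ Option.Rel t.γ.r₂ F₂.τ.pout τ.pout ∧ F₁.τ.p3 = none := t.γ.port
  have pi : F₂.τ.pin = some t.γ.j₂ := (F₂.τ.inn _).1 t.γ.s_2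
  have q₁ := fun x => kd_of (F₁.F.ht x) (en_q (some B)) pt.1
  have cl₁ : ∀ x, (F₁.F.c x).Cl x := fun x => F₁.hd x ▸ F₁.F.cl x
  have cl₂ : ∀ x, (F₂.F.c x).Cl x := fun x => F₂.hd x ▸ F₂.F.cl x
  choose cH cp gm pM cl mH mp fo h0 hw using fun x : JJ g I₁ I₂ => W.c (F₁.F.c x.d₁) (F₂.F.c x.d₂) (by
    obtain ⟨s, ks⟩ := ex_cl (s := true) T₁.ko x.d₁.1
    have es : F₁.F.t x.d₁ = F₂.F.s x.d₂ := ((F₁.lb _).2 s (F₁.hd _ ▸ ks)).uq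
      ((F₂.lb _).1 s (F₂.hd _ ▸ (cl_lr g.toGl3 x.l x.r).1 ks))
    exact Option.some.inj (((congrArg _ pt.1).symm.trans (F₁.F.ht _)).trans
      (es ▸ (F₂.F.hs _).symm.trans (congrArg _ pi)))) (F₁.F.mc _) (F₂.F.mc _) fun _ => q₁ _
  replace fo := fun x => fo x ((1 / 2 : ℝ) • η x.j) (by rw [F₁.fo, F₂.fo]; exact fm_smul (fm x) _)
  have cH' : ∀ x, (cH x).Cl x.j := fun x =>
    (H.tw t.γ (fun _ => cH x) _ (fun _ => F₂.F.c x.d₂) x.j _ _ (W.gf 0) (fun _ => gm x)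
      (tw_one _ ((ts.ok _ (F₂.F.ty _ _)).qhs (kd_of (F₂.F.hs _) (en_q (some B)) pi)).2.1)
      (lgE (ts.ok _ (F₁.F.ty _ _))) (cl₁ _) (cl₂ _) x.l x.r).1.choose_spec
  have ty := fun x => (gm x).all (p := (· ∈ 𝒯)) (F₁.F.ty _) (F₂.F.ty _)
  have hs := fun x => (map_rel t.γ.pin (gm x).r₁).trans (F₁.F.hs x.d₁)
  have ht := fun x => (map_rel pt.2.1 (gm x).r₂).trans (F₂.F.ht x.d₂)
  have p3 := t.γ.p3.2
  have nc := o.nc.trans nb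
  have q := fun x j => end_q (en_q a) (en_q c) (hs x) (ht x) p3 (j := j)
  have fin : (range fun x : JJ g I₁ I₂ => η x.j).Finite :=
    (f₁.biUnion fun u _ => f₂.biUnion fun v _ => Set.Subsingleton.finite (s := {f | g.Fm f u v})
      fun _ k _ k' => H.cgl.fm _ _ _ _ _ k k').subset (range_subset_iff.2 fun x =>
        mem_biUnion (mem_range_self _) (mem_biUnion (mem_range_self _) (fm x)))
  have fin' : (⋃ x : JJ g I₁ I₂, {(1 / 2 : ℝ) • η x.j}).Finite := (fin.image ((1 / 2 : ℝ) • ·)).subset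
    (iUnion_subset fun x => singleton_subset_iff.2 ⟨_, ⟨x, rfl⟩, rfl⟩)
  have ps : τ.pin = none → ∀ x : JJ g I₁ I₂, ∀ f ∈ convexHull ℝ {(1 / 2 : ℝ) • η x.j},
      T.X.Ps x.j ((2 : ℝ) • f) := fun e x f hf => by
    rw [convexHull_singleton] at hf
    rw [show f = _ from hf, two_half]
    simpa using sg (go_none ((congrArg _ e).symm.trans o.pin)) x 0 ⟨le_rfl, zero_le_one⟩
  have wl : ∀ b, ∀ i ∈ βH.wl b, i = t.γ.i := fun b i e =>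
    Option.some.inj (e.symm.trans (Subsingleton.elim b 0 ▸ W.gb.wl))
  let FH : FM 𝒯 βH (JJ g I₁ I₂) := ⟨cH, (·.j), cH', mH, ty⟩
  let Fp : FM 𝒯 βp (JJ g I₁ I₂) := ⟨cp, (·.j), fun x => cl x _ (cH' x), mp, fun x => pM x ▸ ty x⟩
  obtain ⟨CH, roH⟩ := fmQ G FH _ ts one_le_two nc p3 (fun x j e => e.elim (q x j) fun ⟨b, e⟩ =>
    wl b j e ▸ (congrArg (fun T : TY => T.1.kd) (gm x).t₁).symm.trans (q₁ _)) fin' (fun x => hl1 (fo x).2) ps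
  obtain ⟨Cp, rop⟩ := fmQ G Fp _ ts zero_le_two nc p3
    (fun x j e => pM x ▸ q x j (e.resolve_right fun ⟨b, _⟩ => b.elim0)) fin' (fun x => hl1 (fo x).1) ps
  let p : PF 𝒯 (𝓔.en a) (𝓔.en c) none βp (JJ g I₁ I₂) := ⟨⟨Fp, Cp, rop⟩, fun x => F₁.F.s x.d₁,
    fun x => F₂.F.t x.d₂, fun _ => (), fun x => pM x ▸ hs x, fun x => pM x ▸ ht x, fun _ => congrArg _ p3⟩
  have lb : p.Lb T := fun x => ⟨fun s k => (F₁.lb _).1 s (F₁.hd _ ▸ (ki_cl g x.l s).2 k), fun s k =>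
    (F₂.lb _).2 s (F₂.hd _ ▸ (cl_o g.ko g.r.open_source (fun p k => (mem_r g.toGl3).2
      (lt_of_lt_of_le (by norm_num) (not_lt.1 fun m => (T₂.io p m).not_gt k))) x.r s).2 k)⟩
  have inj : Injective fun x : JJ g I₁ I₂ => x.j := fun _ _ => JJ.ext
  obtain ⟨βγ, bl, Γ, pr⟩ := exists_if G o nb p ts lb ρ r hr (η := fun x => η x.j) (fun x => (fo x).1 0) fin
    (fun e x => by simpa only [hr] using sg e x) inj
  exact ⟨⟨τ, t, Λ, βp, βH, βγ, W.gb, W.gf, W.ep, bl, p, ⟨FH, CH, roH⟩, Γ, fun _ => ⟨rfl, rfl⟩, lb, pM, gm, fo,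
    h0, hw, G.prp T p.toRF o.toOnP (fun b => b.elim0) inj,
    G.prp T ⟨FH, CH, roH⟩ o.toOnP (fun b i e => by rw [wl b i e, t.γ.h]; exact (𝓔.q B).h2) inj, pr⟩⟩

variable (mk) in
/-- **P-KD** -/
theorem kd' : KdStmt mk := by
  intro g 𝓔 G a B C P D Z
  have H := g.lf
  have ts := g.ts 𝓔 G _ (tp_fin a B C)
  obtain ⟨τ, ι, o, hι, sj⟩ := exists_mt P.X0 (𝓔.go a) (𝓔.go a) () (go_std a) (go_std a) trivial
    (fun _ : Unit => ⟨(𝓔.r G).g.et, none, P.g0.n⟩) (fun _ => rfl) (fun _ => (𝓔.r G).std)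
    Subsingleton.pairwise (fun _ => Cp3.core P.g0) fun j => (j.cast P.g0.nT).elim0
  let t : PT (𝓔.go a) (𝓔.r G).g (𝓔.go a) P.g0 Z.L.τ D.τB τ :=
    ⟨Z.L.o, D.oB, D.nB, o, ι (), hι (), fun i k => (sj i k).choose_spec⟩
  obtain ⟨βκ, βι, Λ, W⟩ := exists_w1 H t.γ Z.L.β D.βB
  have pt : Z.L.τ.p3 = some t.γ.j₁ ∧ Option.Rel t.γ.r₁ Z.L.τ.pout τ.pout ∧ D.τB.pout = none := t.γ.port
  have pi : D.τB.pin = some t.γ.j₂ := (D.τB.inn _).1 t.γ.s_2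
  let F := Z.L.F G.c0
  let l' : P.IL → LS P G.c0 := fun l => ⟨l, P.clL _ l.2, fun _ => l.2⟩
  have t₁ : ∀ l, (F.c l).ty t.γ.j₁ = 𝓔.rty G G.c0 := fun l =>
    Option.some.inj (((congrArg _ pt.1).symm.trans (F.hu l)).trans (congrArg _ (Z.L.hu _ l)))
  choose cκ cι gm pM cl mκ mι fo k0 kw using fun l : P.IL => W.c (F.c (l' l)) (D.B.c ())
    ((t₁ _).trans (Option.some.inj (((congrArg _ pi).symm.trans (D.B.hs ())).trans (congrArg _ D.Bs))).symm)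
    (F.mc _) (D.B.mc _) nofun
  choose d hd using fun l => Gm56.rp_cls (βκ.fr 0) (cκ l).mon
  have rl : ∀ l, P.g0.Rl (d l) l := fun l =>
    (H.cgl.cl t.γ _ _ _ _ _ _ 0 _ _ _ (W.gf 0) (gm l) (hd l) (by
      have := F.cl (l' l)
      rwa [Z.L.hd] at this) (D.B.cl ())).1
  replace fo := fun l => fo l ((1 / 2 : ℝ) • P.η0 (d l)) (by
    have := fm_smul (P.e0 _ _ (rl l)) (1 / 2)
    rw [smul_zero] at this
    rw [Z.L.fo, D.Bf]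
    exact this)
  have ty := fun l => (gm l).all (p := (· ∈ 𝓔.TP G a B C)) (F.ty _) fun j =>
    (D.B.ty () j).imp_left fun ⟨_, e, _⟩ => e.elim
  have hs := fun l => (map_rel t.γ.pin (gm l).r₁).trans (F.hs (l' l))
  have ht := fun l => (map_rel pt.2.1 (gm l).r₁).trans (F.ht (l' l))
  have p3 := t.γ.p3.2
  have nc := o.nc.trans P.g0.nT
  have q := fun x j => end_q (en_q a) (en_q a) (hs x) (ht x) p3 (j := j)
  have := P.fL.to_subtype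
  have fin : (⋃ l, {(1 / 2 : ℝ) • P.η0 (d l)}).Finite := finite_iUnion fun _ => finite_singleton _
  have ps : τ.pin = none → ∀ l, ∀ f ∈ convexHull ℝ {(1 / 2 : ℝ) • P.η0 (d l)},
      P.X0.X.Ps (d l) ((2 : ℝ) • f) := fun e l f hf => by
    rw [convexHull_singleton] at hf
    rw [show f = _ from hf, two_half]
    exact P.p0 (go_none ((congrArg _ e).symm.trans o.pin)) _ _ l.2 (rl l)
  have wl : ∀ b, ∀ i ∈ βκ.wl b, i = t.γ.i := fun b i e =>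
    Option.some.inj (e.symm.trans (Subsingleton.elim b 0 ▸ W.gb.wl))
  have ex : Ext2 t.γ.k₁ {x | ∃ j ≠ t.γ.j₁, (Z.L.τ.nb j).s ≠ none ∧ x ∈ (Z.L.τ.nb j).k.target} := by
    refine P.ext.imp fun e h => ⟨h.1, ?_, h.2.2⟩
    rintro x ⟨j, ne, e, m⟩
    refine h.2.1 x ?_
    rcases Z.L.τ.port e with e | e | e
    · obtain ⟨h1, h2, -⟩ := EO.mem (Z.L.o.pin.symm.trans (congrArg _ e))
      rw [NB.mem_tgt h1, h2] at m
      exact .inl m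
    · obtain ⟨h1, h2, -⟩ := EO.mem (Z.L.o.pout.symm.trans (congrArg _ e))
      rw [NB.mem_tgt h1, h2] at m
      exact .inr m
    · exact (ne (Option.some.inj (e.symm.trans pt.1))).elim
  let Fι : FM (𝓔.TP G a B C) βι P.IL := ⟨cι, d, fun l => cl l _ (hd l), mι, fun l => pM l ▸ ty l⟩
  obtain ⟨κ, hκ⟩ := g.fm (⟨cκ, d, hd, mκ, ty⟩ : FM (𝓔.TP G a B C) βκ P.IL) _ ts one_le_two nc
    (fun e => (e p3).elim) (fun l j e => q l j (τ.of_port (.inr (.inl e))))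
    (.inl fun l j e => q l j (τ.of_port (.inl e))) (fun l b j e _ ens C => wl b j e ▸ H.hol t.γ (cκ l) ens C wl
      (𝓔.r G).h2 (((gm l).t₁.symm.trans (t₁ _)).symm ▸ (𝓔.r G).per _) (lgE (ts.ok _ (ty l _))) ex)
    (fun l j e => nomatch p3.symm.trans e) fin (fun l => hl1 (fo l).2) fun e l => ⟨ps e l, fun j b n => by
      rcases b with b | ⟨b, e⟩
      · exact nomatch n.symm.trans (q l j b)
      · rw [wl b j e, t.γ.h]
        exact ⟨G.c0, (Mv17.g3_nl P.g0.toGl3 (rl l)).1 (P.clL _ l.2), G.tor⟩⟩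
  obtain ⟨_, Cκ, roκ⟩ := κ
  subst hκ
  obtain ⟨Cι, roι⟩ := fmQ g Fι _ ts zero_le_two nc p3
    (fun x j e => pM x ▸ q x j (e.resolve_right fun ⟨b, _⟩ => b.elim0)) fin (fun x => hl1 (fo x).1) ps
  exact ⟨⟨τ, t, Λ, βκ, βι, ⟨_, Cκ, roκ⟩, ⟨⟨Fι, Cι, roι⟩, fun l => F.s (l' l), fun l => F.t (l' l), fun _ => (),
    fun l => pM l ▸ hs l, fun l => pM l ▸ ht l, fun _ => congrArg _ p3⟩, fun l => ⟨fun s k =>
      (Z.L.lb _ (l' l)).1 s (Z.L.hd _ _ ▸ (cl_i P.g0.ki P.g0.l.open_source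
        (fun p k => (mem_l P.g0.toGl3).2 ((P.L.i3 p k).trans_lt four_pos)) (rl l) s).2 k), fun s k =>
      (Z.L.lb _ (l' l)).2 s (Z.L.hd _ _ ▸ (cl_o P.g0.ko P.g0.l.open_source
        (fun p k => (mem_l P.g0.toGl3).2 ((P.L.o3 p k).trans_lt four_pos)) (rl l) s).2 k)⟩,
    rl, fun l => (fo l).1 0, k0, kw⟩⟩

end Crest.Agent.X212.Emo56
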