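import Crest.Agent.X212.Emo56.Iso
import Crest.Agent.X212.Met55.Trf

/-!
# Row 212, GEO engine (helper56): sites and modules (E-SITE, E-EXT)
-/

set_option autoImplicit false
set_option linter.unusedSectionVars false
noncomputable section
open scoped Manifold ContDiff Topology InnerProductSpace
open MeasureTheory Set Function Filter

namespace Crest.Agent.X212.Emo56
open An Cyf70 Sw Flo2 Geo28 Met55 Sw87.Mo
open Lab56 (C8 M8 CI Cls)
open Line51 (iL rl)
open Gm56 (Rp LE inl Rel)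
open Pj41 (FSm)

variable {κ : Type} [Fintype κ] [DecidableEq κ] {X : M4} {τ : MT κ X}

theorem fat_ce (e : ET κ) (z : e.A.Y.M × ℝ) : FAt (I := IC e.A.Y.I) (ce e.D.F.e) z :=
  ⟨fun i => ce_sm e.D.F.sm i z, sp_iff.2 (ce_span e.D.F.span z)⟩

theorem sw_zero (wl : Fin 0 → Option τ.N) (t : Tk 0) (i : τ.N) : τ.sw wl t i ≤ 2 := by
  rw [MT.sw]; split_ifs <;> simp

theorem u_dj {d : ℝ} (h : d ≤ 1) : Pairwise (Disjoint on fun i => (τ.nb i).U d) :=
  fun _ _ q => (τ.dj q).mono (NB.U_sub _ h) (NB.U_sub _ h)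

theorem cd_cl (d : ℝ) : IsClosed (⋃ i, Cd (τ.nb i) d) := isClosed_iUnion_of_finite fun _ => cd_closed

theorem cd_tgt {b : NB κ X} {d : ℝ} (h : d < 1) : Cd b d ⊆ b.k.target := (cd_sub h).trans (b.U_sub le_rfl)

open Classical in
/-- the frames of the cylinders on the bands -/
def nkF (τ : MT κ X) (a : Option κ) : VF X.I X.M := fun x =>
  ∑ i, if x ∈ (τ.nb i).k.target then pfd (τ.nb i).n.k (ce (τ.nb i).e.D.F.e) a x else 0

theorem nkF_eq {i : τ.N} {x : X.M} (h : x ∈ (τ.nb i).k.target) (a : Option κ) :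
    nkF τ a x = pfd (τ.nb i).n.k (ce (τ.nb i).e.D.F.e) a x :=
  (Finset.sum_eq_single i (fun _ _ q => if_neg fun k => disjoint_left.1 (τ.dj q) k h)
    (by simp)).trans (if_pos h)

theorem nkF_rel {i : τ.N} {z} (h : z ∈ (τ.nb i).k.source) (a : Option κ) :
    mfderiv (IC (τ.nb i).e.A.Y.I) X.I (τ.nb i).k z (ce (τ.nb i).e.D.F.e a z) = nkF τ a ((τ.nb i).k z) :=
  (pfd_rel (φ := (τ.nb i).n.k) h a).trans (nkF_eq ((τ.nb i).k.map_source h) a).symm

theorem nkF_fAt {i : τ.N} {x : X.M} (h : x ∈ (τ.nb i).k.target) : FAt (nkF τ) x := by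
  have := (fat_ce _ _).pfd (φ := (τ.nb i).n.k) ((τ.nb i).k.map_target h)
  rw [show (τ.nb i).n.k ((τ.nb i).k.symm x) = x from (τ.nb i).k.right_inv h] at this
  exact this.congr (eventually_of_mem ((τ.nb i).k.open_target.mem_nhds h) fun _ k => nkF_eq k)

/-- every model has a frame of eight fields -/
theorem exists_eight (τ : MT κ X) : ∃ e : Fin 8 → VF X.I X.M, ∀ x, FAt e x := by
  obtain ⟨N, r, -, -, -, h, -⟩ := exists_patch (e := nkF τ) (τ.cpt 0) isOpen_univ (subset_univ _)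
    fun x hx => by
      obtain ⟨i, hi⟩ := not_forall.1 hx
      refine nkF_fAt (i := i) ?_
      rw [NB.tgt, mem_preimage]
      generalize (τ.nb i).n.tm x = σ at hi
      rcases not_and_or.1 hi with k | k <;> obtain ⟨k1, k2⟩ := Classical.not_imp.1 k <;> rw [k1]
      exacts [not_le.1 k2, by simpa [Jk] using k2]
  exact Ms48.ms1 X.X _ r h

/-- **E-SITE** -/
theorem site : SiteStmt := by
  intro X τ hs
  have := Sob92.scs (I := X.I) (M := X.M)
  obtain ⟨e, he⟩ := exists_eight τ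
  obtain ⟨θ, s1, s2, s3⟩ := Gm56.exists_fun (I := X.I) (O := fun i => (τ.nb i).U (7 / 8))
    (fun _ => NB.U_open _ _) (u_dj (by norm_num)) (cd_cl (3 / 4))
    (iUnion_mono fun _ => cd_sub (by norm_num)) (θ := fun _ _ => 1) fun _ _ _ => contMDiffAt_const
  have gi : Injective (some ∘ Sum.inr : Fin 8 → Option κ0) :=
    (Option.some_injective _).comp Sum.inr_injective
  let r : Option κ0 → VF X.I X.M := fun a x => θ x • nkF τ a x + (1 - θ x) • pad (some ∘ .inr) e a x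
  have hr : ∀ x, FAt r x := fun x => by
    have k := (he x).pad gi
    refine ⟨fun a => VAt.add ?_ (VAt.smul (contMDiffAt_const.sub (s1 x)) (k.sm a)), ?_⟩
    · by_cases hx : x ∈ ⋃ i, Cd (τ.nb i) (7 / 8)
      · obtain ⟨i, hi⟩ := mem_iUnion.1 hx
        exact VAt.smul (s1 x) ((nkF_fAt (cd_tgt (by norm_num) hi)).sm a)
      · refine VAt.zero.congr (eventually_of_mem ((cd_cl _).isOpen_compl.mem_nhds hx) fun y hy => ?_)
        rw [s3 y fun q => hy (iUnion_mono (fun _ => sub_cd) q), zero_smul]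
    by_cases h0 : θ x = 0
    · rw [show atx r x = atx (pad (some ∘ .inr) e) x from funext fun a => by simp [atx, r, h0]]
      exact k.sp
    obtain ⟨i, hi⟩ := mem_iUnion.1 (not_not.1 (mt (s3 x) h0))
    obtain ⟨z, hz, rfl⟩ := exists_k (by norm_num) hi
    have hz' := NB.V_sub _ (by norm_num) hz
    refine (nkF_fAt ((τ.nb i).k.map_source hz')).sp.of_range fun a => ?_
    by_cases ha : a ∈ range (some ∘ Sum.inr : Fin 8 → Option κ0)
    · obtain ⟨j, rfl⟩ := ha
      refine ⟨0, none, ?_⟩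
      rw [zero_smul, atx, ← nkF_rel hz', show ce (τ.nb i).e.D.F.e ((some ∘ Sum.inr) j) z = 0 from
        Prod.ext (hs i j z.1) rfl]
      exact map_zero _
    · exact ⟨(θ ((τ.nb i).k z))⁻¹, a, by
        simp only [atx, r, pad_of_notMem e ha, Pi.zero_apply, smul_zero, add_zero]
        exact (inv_smul_smul₀ h0 _).symm⟩
  have lit : ∀ i v, v ≤ 2 → (τ.nb i).Rl r v (3 / 4) := fun i v hv a z hz => by
    have hz' := NB.k_mem (by norm_num) hz
    rw [ET.nf_two _ hv, nkF_rel (NB.V_sub _ (by norm_num) hz)]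
    simp [r, s2 i _ ⟨mem_iUnion.2 ⟨i, sub_cd hz'⟩, NB.U_mono _ (by norm_num) hz'⟩]
  exact ⟨⟨fun _ => r, Fin.elim0, fun a _ x => VJ.of_fixed ((hr x).sm a), fun _ x => (hr x).sp,
    fun _ _ => rfl, fun _ => rfl, fun c => c.elim0, fun c => c.elim0,
    fun t i _ => (lit i _ (sw_zero _ t i)).mono (by norm_num), fun c => c.elim0, fun _ => rfl⟩,
    fun i => lit i 2 le_rfl⟩

theorem rel_kd {b : NB κ X} {e : Option κ → VF X.I X.M} {v d : ℝ} (h : b.Rl e v d) (hv : v ≤ 2) :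
    Rel (I' := IC b.e.A.Y.I) (ce b.e.D.F.e) e (kd b d) :=
  ⟨kd_sm, kd_sm', fun a z hz => by have := h a z hz.2; rwa [ET.nf_two _ hv] at this⟩

/-- the class on a band, up to the margin `d` -/
theorem pb_kd {b : NB κ X} {e : Option κ → VF X.I X.M} {l l' : Type} [Fintype l] [DecidableEq l]
    [Fintype l'] [DecidableEq l'] {m : C8 X.M (Option κ) l} {n : C8 (b.e.A.Y.M × ℝ) (Option κ) l'} {c s}
    (h : Rp e m c) (h' : Rp (I := IC b.e.A.Y.I) (ce b.e.D.F.e) n (show Cls (IY b.e.A) univ from s))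
    (q : b.n.Cl c s) {d : ℝ} (hd : d ≤ 1) :
    Bor5.T.Pb (kd b d) (kd b d).source c (show Cls (IY b.e.A) univ from s) :=
  have := Sob92.scs (I := IC b.e.A.Y.I) (M := b.e.A.Y.M × ℝ)
  have k := (Gm56.pb_iff (b.src ▸ b.k.open_source) h h').1 q
  have s : (kd b d).source ⊆ univ ×ˢ Jk b.s := fun _ z => b.src.subset z.1
  (Gm56.pb_iff (kd b d).open_source h h').2 ⟨fun y hy => k.1 y (s hy), k.2.mono s⟩

variable (κ) in
/-- **E-EXT** -/
theorem em : EmStmt κ := by
  intro X τ β ec cl s d hR hS hE hC hu o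
  classical
  have := Sob92.scs (I := X.I) (M := X.M)
  choose n hn hp using hE
  obtain ⟨m, hm⟩ := Gm56.exists_rp (l := Fin 6) X.X.dim.le (by simp) (β.fr 0) d
  have h3 : (3 / 4 : ℝ) ≤ 1 := by norm_num
  have R := fun i => rel_kd (hR i) le_rfl
  have im : ∀ i, kd (τ.nb i) (3 / 4) '' (kd (τ.nb i) (3 / 4)).source = (τ.nb i).U (3 / 4) := fun i =>
    (OpenPartialHomeomorph.image_source_eq_target _).trans (kd_tgt h3)
  choose u hu' using fun i =>
    have := Sob92.scs (I := IC (τ.nb i).e.A.Y.I) (M := (τ.nb i).e.A.Y.M × ℝ)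
    ((R i).pb_iff (kd _ _).open_source subset_rfl hm (hp i)).1 (pb_kd hm (hp i) (hC i) h3)
  have dj : ∀ i j, ∀ x ∈ (τ.nb i).U (3 / 4) ∩ (τ.nb j).U (3 / 4), i = j := fun i j x hx =>
    by_contra fun q => disjoint_left.1 (u_dj h3 q) hx.1 hx.2
  obtain ⟨a, a1, a2⟩ := Gm56.exists_patchM (P := Met55.fP (β.e 0)) (fun i => (τ.nb i).U_open (3 / 4))
    (fun i => ((R i).on subset_rfl (fun y _ => (hp i).fr y) ((hp i).on.mono (subset_univ _))).mono
      (im i).superset) fun i j x hx => by obtain rfl := dj i j x hx; exact ⟨rfl, rfl⟩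
  let v : ℤ → τ.N → X.M → Matrix (Fin 6) (Fin 6) ℂ := fun z i x =>
    (ec i).u ((τ.nb i).k.symm x).1 ^ (if o = some i then z else 0) • u i ((τ.nb i).k.symm x)
  have hv : ∀ z i, CI X.I m a (v z i) ((τ.nb i).U (3 / 4)) := fun z i =>
    ((((R i).ci subset_rfl (hu' i)).mono (im i).superset).of_eq (fun _ _ => ⟨rfl, rfl⟩) (a2 i)).smul'
      (fun x hx => ((gau_pow (hu i) _).1 _).comp x (contMDiffAt_fst.comp x
        ((R i).sa' ((kd_tgt h3).superset hx)))) fun x _ => (gau_pow (hu i) _).2 _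
  choose w w1 w2 using fun z => Gm56.exists_patchI (fun i => (τ.nb i).U_open (3 / 4)) (hv z)
    fun i j x hx => by obtain rfl := dj i j x hx; rfl
  choose G W g1 g2 g3 g4 using fun z => Gm56.exists_ext hm.on
    (isOpen_iUnion fun i => (τ.nb i).U_open (3 / 4)) (cd_cl (1 / 2))
    (iUnion_mono fun _ => cd_sub (by norm_num)) a1 (w1 z)
  have c1 : ∀ i, ∀ y ∈ (τ.nb i).V (1 / 2), (τ.nb i).k y ∈ ⋃ i, Cd (τ.nb i) (1 / 2) := fun i y hy =>
    mem_iUnion.2 ⟨i, sub_cd (NB.k_mem (by norm_num) hy)⟩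
  have c2 : ∀ i, ∀ y ∈ (τ.nb i).V (1 / 2), (τ.nb i).k y ∈ (τ.nb i).U (3 / 4) := fun i y hy =>
    NB.U_mono _ (by norm_num) (NB.k_mem (by norm_num) hy)
  have c3 : ∀ i, ∀ y ∈ (τ.nb i).V (1 / 2), (τ.nb i).k.symm ((τ.nb i).k y) = y := fun i y hy =>
    (τ.nb i).k.left_inv (NB.V_sub _ (by norm_num) hy)
  refine ⟨fun z => ⟨ec, cl, hS, G z, fun i y hy => ?_⟩,
    fun z => ⟨rfl, fun _ => rfl, hm.of_ci (g1 z) (g2 z)⟩, fun j hj z => ⟨fun _ => rfl, _,
      ((g2 0).symm hm.on (g1 0)).trans (g2 z), fun y hy => ?_⟩⟩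
  · have e1 := g3 z _ (c1 i y hy)
    have e2 := a2 i _ (c2 i y hy)
    have e3 := congrArg Prod.fst (c3 i y hy)
    rw [hn]
    exact ⟨congrArg rl (e1.1.trans (congrArg (Matrix.fromBlocks · 0 0 0)
        (e2.1.trans (congrArg (n i).p e3)))),
      fun c => congrArg rl ((congrFun e1.2 c).trans (congrArg (Matrix.fromBlocks · 0 0 0)
        ((congrFun e2.2 c).trans (congrArg ((n i).ρ c) e3))))⟩
  · have e : W z ((τ.nb j).k y) = (ec j).u y.1 ^ z • W 0 ((τ.nb j).k y) := by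
      rw [g4 z _ (c1 j y hy), g4 0 _ (c1 j y hy), w2 z j (c2 j y hy), w2 0 j (c2 j y hy)]
      simp only [v, c3 j y hy, if_pos (show o = some j from hj), zpow_zero, one_smul]
      ext (a | a) b <;> simp
    show W z _ * (W 0 _).conjTranspose = _
    rw [e, Matrix.smul_mul, ((g2 0).un _ trivial).iso.tgt]

end Crest.Agent.X212.Emo56
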