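import Crest.Agent.X212.Sw87.MoP
import Crest.Agent.X212.Geo28.As5

/-!
# Row 212, GEO engine (helper56): roots, allowed types, properness (P-FM, P-TS, P-PRP)
-/

set_option autoImplicit false
noncomputable section
open Set Function

namespace Crest.Agent.X212.Emo56
open An Sw Flo2 Geo28 Sw87.Mo Pen22

/-- **P-FM** -/
theorem fmS (H : Lf) (mk : Mk κ0 L0 ν0) : FmStmt mk := by
  intro X τ k β 𝒯 I F S ts k2 nc p3 qo qi hol lift fin hl ps
  obtain ⟨K, hK⟩ := ts.bd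
  obtain ⟨C, hC⟩ := H.bd β I F.c _ fin (fun f hf => let ⟨i, h⟩ := mem_iUnion.1 hf; (hl i).cs f h)
    (fun i t ht => convexHull_mono (subset_iUnion S i) ((hl i).mem t ht)) ⟨K, fun i j => hK _ (F.ty i j)⟩
    (.inl F.mc)
  refine ⟨⟨F, C, fun i => ⟨H.ok (F.c i) _ C k2 (fun _ => nc) (hC i) p3 (qo i)
    (qi.imp (· i) fun h => ⟨h.1, h.2.1, nc, h.2.2⟩) (fun a j e n => hol i a j e n _ _)
    (fun j e n => lift i j e n _ _) fun j => ⟨⟨_, F.ty i j⟩, ts.fin _⟩, fun j => ts.ok _ (F.ty i j),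
    fun e => H.nr (F.c i) _ C _ (S i) (F.cl i) (hl i).fin (hl i).cs (hl i).mem (ps e i).1 fun j a => ?_⟩⟩, rfl⟩
  have ok := ts.ok _ (F.ty i j)
  rcases q : ((F.c i).ec j).kd with _ | _ | _
  exacts [.inl (ok.qhs q).2.2.2.1, .inr ⟨ts.zc _ (F.ty i j) q, (ps e i).2 j a q⟩, .inl (ok.dead q).2.1]

/-- **P-TS** -/
theorem tsS (mk : Mk κ0 L0 ν0) : TsStmt mk := by
  intro 𝓔 G S hS
  refine ⟨?_, ?_, ?_, fun g C => ?_⟩
  · rintro _ (⟨A, -, c, rfl⟩ | ⟨s, rfl⟩)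
    exacts [(𝓔.q A).ok, (𝓔.r G).ok s]
  · have := hS.to_subtype
    choose K hK using fun A : S => (𝓔.q A).bd
    obtain ⟨K₀, h0⟩ := Finite.exists_le K
    obtain ⟨K₁, h1⟩ := (𝓔.r G).bd
    refine ⟨max K₀ K₁, ?_⟩
    rintro _ (⟨A, m, c, rfl⟩ | ⟨s, rfl⟩)
    exacts [(hK ⟨A, m⟩ c).mono ((h0 _).trans (le_max_left _ _)), (h1 s).mono (le_max_right _ _)]
  · rintro _ (⟨A, -, c, rfl⟩ | ⟨s, rfl⟩) q
    · exact nomatch q.symm.trans (𝓔.q A).kd
    · rcases eq_or_ne s G.c0 with rfl | ne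
      exacts [(𝓔.r G).zc, nomatch q.symm.trans ((𝓔.r G).dead s ne)]
  · have a : {e : EC ν0 g | ∃ A ∈ S, (⟨g, e⟩ : End κ0 L0 ν0) = ⟨_, (𝓔.q A).ec⟩}.Finite :=
      (hS.biUnion fun A _ => Set.Subsingleton.finite
        (s := {e : EC ν0 g | (⟨g, e⟩ : End κ0 L0 ν0) = ⟨_, (𝓔.q A).ec⟩}) fun e h e' h' => by
          cases h.trans h'.symm; rfl).subset fun e ⟨A, m, h⟩ => mem_biUnion m h
    by_cases q : g = (𝓔.r G).g.et.eg
    · subst q
      refine (a.union ((𝓔.r G).fin C)).subset ?_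
      rintro e ⟨⟨c, ⟨A, m, c', h⟩ | ⟨s, h⟩⟩, p⟩
      · exact .inl ⟨A, m, congrArg Sigma.fst h⟩
      · cases h
        exact .inr ⟨⟨s, rfl⟩, p⟩
    · refine a.subset ?_
      rintro e ⟨⟨c, ⟨A, m, c', h⟩ | ⟨s, h⟩⟩, -⟩
      exacts [⟨A, m, congrArg Sigma.fst h⟩, (q (congrArg (fun T : TY => T.1.toEG) h)).elim]

/-- **P-PRP** -/
theorem prpS (H : Lf) (L : Lvs) (mk : Mk κ0 L0 ν0) : PrpStmt mk := by
  intro a b T τ ga gb k β 𝒯 I F o h2 inj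
  classical
  cases isEmpty_or_nonempty I with
  | inl _ => exact ⟨∅, fun _ => toFinite _⟩
  | inr n =>
    obtain ⟨D, hD, fin⟩ := fin_of L a b T univ
    choose e he using fun f : D => tf_of H β h2 (fun i => ((F.c n.some).std i).ok.sζ) (ens0 𝒯 τ) F.C
      ((hD f f.2).mono (subset_univ _)) (o.z (hD f f.2))
    refine ⟨Finset.univ.image e, fun r => ?_⟩
    choose R hR using fun f => he f r
    obtain ⟨R₀, h0⟩ := Finite.exists_le R
    refine ((fin R₀).preimage inj.injOn).subset fun i hi => ?_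
    obtain ⟨y, hy⟩ := Nvg56.exists_cur (F.d i)
    exact ⟨trivial, y, hy, fun f hf => (hR ⟨f, hf⟩ (F.c i) _ y 0 (F.cl i) hy (fun j => ((F.ro i).2 j).u)
      (hi _ (Finset.mem_image_of_mem _ (Finset.mem_univ _)))).trans (h0 _)⟩

end Crest.Agent.X212.Emo56
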