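import Crest.Agent.X212.Emo56.Dd
import Crest.Agent.X212.Sw87.MoX

/-!
# Row 212, GEO engine (helper56): the reflection paths of a pentagon (P-GD)
-/

set_option autoImplicit false
noncomputable section
open Set Function

namespace Crest.Agent.X212.Emo56
open An Sw Flo2 Geo28 Sw87.Mo

/-- **P-GD** -/
theorem gd (mk : Mk κ0 L0 ν0) : GdStmt mk := by
  intro g 𝓔 G a B C P D Z Q
  choose β bl Γ pr using fun b => exists_if g Q.tC.o P.gN.nT Q.cP (g.ts _ _ _ (tp_fin a B C)) Q.lb (P.ρ b)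
    (·.rs b) (fun θ => by rw [(Q.hd _).1, (Q.hd _).1]; rfl) (η := fun θ => P.η θ.k) (fun θ => (Q.fo θ).1 0)
    (fin_η P g.lf) (fun e θ s k => by
      have := P.p e b _ θ.hk (1 - s) s 0 (sub_nonneg.2 k.2) k.1 le_rfl (by ring)
      rw [zero_smul, add_zero] at this
      rw [(Q.hd θ).1]
      exact this)
    fun θ θ' e => PM.ext ((Q.hd θ).1.symm.trans (e.trans (Q.hd θ').1))
  exact ⟨⟨β, bl, Γ, pr⟩⟩

end Crest.Agent.X212.Emo56
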