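import Crest.Agent.X212.Emo56.GluA

/-!
# Row 212, GEO engine (helper56): E-GLU, part B: glued modules, forms, masses and test spinors
-/

set_option autoImplicit false
set_option linter.unusedSectionVars false
noncomputable section
open scoped Manifold ContDiff Topology
open Set Function Filter

namespace Crest.Agent.X212.Emo56
open An Cyf70 Sw Flo2 Geo28 Met55 Sw87.Mo Pen22
open Rob53.Pz (rl_P cmp_zero)
open Rod53 (ld_pd)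
open Lab56 (C8)
open Gm56 (LE)
open Prm93 (JS JAt)
open Dr59 (pm psh Cs)

variable {κ : Type} [Fintype κ] [DecidableEq κ] {μ : Type} [Fintype μ] [DecidableEq μ]
  {X X₁ X₂ : M4} {k k₁ k₂ : ℕ} {τ : MT κ X} {τ₁ : MT κ X₁} {τ₂ : MT κ X₂}

/-- `m` is the module of the type `T` on the band `b` -/
def Lt (b : NB κ X) (m : C8 X.M (Option κ) μ) (T : Ty κ L0 (μ ⊕ μ)) : Prop :=
  ∃ (ec : EC (μ ⊕ μ) b.e.eg) (cl : ec.L), T = ⟨⟨_, ec⟩, cl⟩ ∧ ∀ x ∈ b.V (1 / 2),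
    m.re.p (b.k x) = (ec.m cl).p x.1 ∧ ∀ a, m.re.ρ a (b.k x) = (ec.m cl).ρ a x.1

theorem lt_mm (M : MM μ τ) (i : τ.N) : Lt (τ.nb i) M.m (M.ty i) := ⟨_, _, rfl, M.lit i⟩

theorem lt_cor {b₁ : NB κ X₁} {b : NB κ X} {g : X₁.M → X.M} (h : b₁.Cor b g) {m₁ : C8 X₁.M (Option κ) μ}
    {m : C8 X.M (Option κ) μ} {T} (q : Lt b₁ m₁ T) (e : LE m₁ (m.comp g) b₁.k.target) : Lt b m T := by
  obtain ⟨n, rfl, hn⟩ := h
  obtain ⟨ec, cl, rfl, q⟩ := q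
  refine ⟨ec, cl, rfl, fun z hz => ?_⟩
  have k := e _ (b₁.k.map_source (b₁.V_sub (by norm_num) hz))
  rw [show (⟨b₁.e, b₁.s, n⟩ : NB κ X).k z = g (b₁.k z) from hn z.1 z.2 hz.2]
  exact ⟨(congrArg Line51.rl k.1).trans (q z hz).1,
    fun a => (congrArg Line51.rl (congrFun k.2 a)).trans ((q z hz).2 a)⟩

theorem pp_rel {β : MB τ k} {β₁ : MB τ₁ k₁} {m : C8 X.M (Option κ) μ} {m₁ : C8 X₁.M (Option κ) μ} {x p}
    (o : ∀ a b c d, β.B.o a b c d x = β₁.B.o a b c d p) (e : m.p x = m₁.p p ∧ m.r x = m₁.r p) :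
    (β.bg0 m).pm x = (β₁.bg0 m₁).pm p ∧ (β.bg0 m).pp x = (β₁.bg0 m₁).pp p := by
  have r : ∀ a, m.ρ a x = m₁.ρ a p := congrFun e.2
  constructor <;> simp only [Bg.pm, Bg.pp, Bg.vol, MB.bg0, C8.re, o, r, e.1]

theorem cmp_rel {g : X₁.M → X.M} {e₁ : Option κ → VF X₁.I X₁.M} {e : Option κ → VF X.I X.M} {p : X₁.M}
    (fe : ∀ a, mfderiv X₁.I X.I g p (e₁ a p) = e a (g p)) {f : X.Fm} {f₁ : X₁.Fm}
    (fo : pm X₁.I X.I g f p = f₁ p) : cmp e f (g p) = cmp e₁ f₁ p := by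
  unfold Sw87.Mo.cmp Int54.cf
  rw [← fo, Dr59.pm]
  simp only [R208.F.evA_pb]
  exact congrArg _ (funext fun s => congrArg _ (funext fun i => (fe _).symm))

theorem jAt_rel {N : Type} [NormedAddCommGroup N] [NormedSpace ℝ N] (g : PD X₁ X) {W : Set X₁.M}
    (hW : IsOpen W) (hs : W ⊆ g.source) {ι : Fin k₁ → Fin k} {f₁ : Tk k₁ → X₁.M → N} {f : Tk k → X.M → N}
    (h₁ : JS X₁.I univ f₁) (h : ∀ t, ∀ p ∈ W, f t (g p) = f₁ (t ∘ ι) p) (t) {p} (hp : p ∈ W) :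
    JAt X.I f t (g p) := by
  refine (jAt_comp (ld_pd g.symm (g.map_source (hs hp))).contMDiffAt
    (JAt.reparam (sm_comp ι).contDiffAt (h₁ _ trivial _))).congr ?_
  filter_upwards [ev_snd ((g.toOpenPartialHomeomorph.isOpen_image_of_subset_source hW hs).mem_nhds
    (mem_image_of_mem _ hp))]
  rintro ⟨s, _⟩ ⟨q, hq, rfl⟩
  exact (h s q hq).trans (congrArg _ (g.left_inv (hs hq)).symm)

variable (γ : TG τ τ₁ τ₂)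

theorem js3 {N : Type} [NormedAddCommGroup N] [NormedSpace ℝ N] {ι₁ : Fin k₁ → Fin k} {ι₂ : Fin k₂ → Fin k}
    {f₁ : Tk k₁ → X₁.M → N} {f₂ : Tk k₂ → X₂.M → N} {f : Tk k → X.M → N} (h₁ : JS X₁.I univ f₁)
    (h₂ : JS X₂.I univ f₂) (l : ∀ t p, γ.k₁.tm p < 3 / 2 → f t (γ.g.l p) = f₁ (t ∘ ι₁) p)
    (r : ∀ t p, -(3 / 2) < γ.k₂.tm p → f t (γ.g.r p) = f₂ (t ∘ ι₂) p)
    (n : ∀ t, ∀ x ∈ (τ.nb γ.i).U 0, f t x = 0) : JS X.I univ f := fun t _ x => by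
  obtain ⟨p, hp, rfl⟩ | ⟨p, hp, rfl⟩ | hx := cov3 γ x
  · exact jAt_rel _ (isOpen_Iio.preimage γ.k₁.cont) (fun _ => s_l γ) h₁ l t hp
  · exact jAt_rel _ (isOpen_Ioi.preimage γ.k₂.cont) (fun _ => s_r γ) h₂ r t hp
  · exact (JAt.of_fixed (contMDiffAt_const (c := 0))).congr
      ((ev_snd ((NB.U_open _ _).mem_nhds hx)).mono fun z hz => n _ _ hz)

theorem sy_l (y) {σ : ℝ} (h : σ ∈ Ioo (0 : ℝ) 4) : γ.g.l.symm (γ.g.n.k (y, σ)) = γ.k₁.k (y, σ) := by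
  rw [← γ.g.ol y σ h]
  exact γ.g.l.left_inv ((mem_l γ.g).2 ((tm_k γ.k₁ y h.1).trans_lt h.2))

theorem sy_r (y) {σ : ℝ} (h : σ ∈ Ioo (0 : ℝ) 4) : γ.g.r.symm (γ.g.n.k (y, σ)) = γ.k₂.k (y, σ - 4) := by
  rw [← γ.g.or y σ h]
  refine γ.g.r.left_inv ((mem_r γ.g).2 ?_)
  rw [tm_k γ.k₂ y (show σ - 4 ∈ Iio 0 from sub_neg.2 h.2)]
  linarith [h.1]

theorem ex_n {x} (h : γ.g.n.tm x ∈ Ioo (0 : ℝ) 4) : ∃ y σ, σ = γ.g.n.tm x ∧ γ.g.n.k (y, σ) = x :=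
  let ⟨y, hy⟩ := Pen22.exists_k γ.g.n h; ⟨y, _, rfl, hy⟩

theorem mem_U₁ {p} (h : 1 < γ.k₁.tm p) : p ∈ (τ₁.nb γ.j₁).U 0 := by
  rw [γ.h₁]; exact jm_out.2 (by simpa using h)

theorem mem_U₂ {p} (h : γ.k₂.tm p < -1) : p ∈ (τ₂.nb γ.j₂).U 0 := by
  rw [γ.h₂]; exact jm_in.2 (by simpa using h)

theorem bx_l (j y) : γ.k₁.tm (τ₁.bx j y) < 3 / 2 := by
  have q := τ₁.off j y γ.j₁
  rw [γ.h₁] at q
  exact lt_of_not_ge fun h => q (γ.k₁.tgt.ge (lt_of_lt_of_le (by norm_num) h))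

theorem bx_r (j y) : -(3 / 2) < γ.k₂.tm (τ₂.bx j y) := by
  have q := τ₂.off j y γ.j₂
  rw [γ.h₂] at q
  exact lt_of_not_ge fun h => q (γ.k₂.tgt.ge (lt_of_le_of_lt h (by norm_num)))

open Classical in
/-- two functions patched along the middle of the neck -/
def p2 {α : Type} (f₁ : X₁.M → α) (f₂ : X₂.M → α) (x : X.M) : α :=
  if γ.g.n.tm x < 2 then f₁ (γ.g.l.symm x) else f₂ (γ.g.r.symm x)

theorem p2_l {α : Type} (f₁ : X₁.M → α) (f₂ : X₂.M → α) {p} (h : γ.k₁.tm p < 3 / 2) :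
    p2 γ f₁ f₂ (γ.g.l p) = f₁ p :=
  (if_pos (by linarith [t_l γ h])).trans (congrArg f₁ (γ.g.l.left_inv (s_l γ h)))

theorem p2_r {α : Type} (f₁ : X₁.M → α) (f₂ : X₂.M → α) {p} (h : -(3 / 2) < γ.k₂.tm p) :
    p2 γ f₁ f₂ (γ.g.r p) = f₂ p :=
  (if_neg (by linarith [t_r γ h])).trans (congrArg f₂ (γ.g.r.left_inv (s_r γ h)))

theorem p2_n {α : Type} {f₁ : X₁.M → α} {f₂ : X₂.M → α} {y} {σ : ℝ} (h : σ ∈ Ioo (0 : ℝ) 4) {v : α}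
    (h₁ : f₁ (γ.k₁.k (y, σ)) = v) (h₂ : f₂ (γ.k₂.k (y, σ - 4)) = v) : p2 γ f₁ f₂ (γ.g.n.k (y, σ)) = v := by
  unfold p2
  rw [sy_l γ y h, sy_r γ y h, h₁, h₂, ite_self]

variable {γ} {β : MB τ k} {β₁ : MB τ₁ k₁} {β₂ : MB τ₂ k₂} {a : Fin k} {ι₁ : Fin k₁ → Fin k}
  {ι₂ : Fin k₂ → Fin k}

theorem act3 (w : GW γ β₁ β₂ a ι₁ ι₂ β.wl) {t i x} (h : 1 < β.v t i) (hx : x ∈ (τ.nb i).U 0) :
    (∃ j p, 1 < β₁.v (t ∘ ι₁) j ∧ p ∈ (τ₁.nb j).U 0 ∧ γ.k₁.tm p < 3 / 2 ∧ γ.g.l p = x) ∨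
    (∃ j p, 1 < β₂.v (t ∘ ι₂) j ∧ p ∈ (τ₂.nb j).U 0 ∧ -(3 / 2) < γ.k₂.tm p ∧ γ.g.r p = x) ∨
      x ∈ (τ.nb γ.i).U 0 := by
  obtain rfl | ⟨j, q⟩ | ⟨j, q⟩ := γ.sur i
  · exact .inr (.inr hx)
  · obtain ⟨p, hp, e⟩ := cor_mem (γ.c₁ _ _ q).2.2 (by norm_num) hx
    exact .inl ⟨j, p, h.trans_eq (w.sw₁ q t), hp,
      (off_l γ q (NB.U_sub _ zero_le_one hp)).trans_lt (by norm_num), e⟩
  · obtain ⟨p, hp, e⟩ := cor_mem (γ.c₂ _ _ q).2.2 (by norm_num) hx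
    exact .inr (.inl ⟨j, p, h.trans_eq (w.sw₂ q t), hp,
      lt_of_lt_of_le (by norm_num) (off_r γ q (NB.U_sub _ zero_le_one hp)), e⟩)

/-- the glued module -/
theorem exists_gm (G : GE γ β₁ β₂ a ι₁ ι₂ β.e) (c₁ : MC μ β₁) (c₂ : MC μ β₂) (h : c₁.ty γ.j₁ = c₂.ty γ.j₂) :
    ∃ M : MM μ τ, γ.GM M c₁.toMM c₂.toMM ∧ M.m.On X.I (fP (β.e 0)) univ := by
  let m : C8 X.M (Option κ) μ := ⟨p2 γ c₁.m.p c₂.m.p, fun b => p2 γ (c₁.m.ρ b) (c₂.m.ρ b)⟩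
  have l : LE c₁.m (m.comp γ.g.l) (γ.k₁.tm ⁻¹' Iio (3 / 2)) := fun p hp =>
    ⟨p2_l γ _ _ hp, funext fun b => p2_l γ _ _ hp⟩
  have r : LE c₂.m (m.comp γ.g.r) (γ.k₂.tm ⁻¹' Ioi (-(3 / 2))) := fun p hp =>
    ⟨p2_r γ _ _ hp, funext fun b => p2_r γ _ _ hp⟩
  have L₁ := lt_mm c₁.toMM γ.j₁
  have L₂ := lt_mm c₂.toMM γ.j₂
  rw [← h] at L₂
  generalize hT : c₁.ty γ.j₁ = T at L₁ L₂
  rw [γ.h₁] at L₁
  rw [γ.h₂] at L₂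
  obtain ⟨ec, cl, rfl, l₁⟩ := L₁
  obtain ⟨ec', cl', q, l₂⟩ := L₂
  cases q
  have n : ∀ y, ∀ σ ∈ Jm none (1 / 2), m.p (γ.g.n.k (y, σ)) = c₁.m.p (γ.k₁.k (y, σ)) ∧
      m.r (γ.g.n.k (y, σ)) = c₁.m.r (γ.k₁.k (y, σ)) := fun y σ hσ => by
    replace hσ := jm_none.1 hσ
    have u : σ ∈ Ioo (0 : ℝ) 4 := ⟨by linarith [hσ.1], by linarith [hσ.2]⟩
    have a₁ := l₁ (y, σ) ⟨trivial, jm_out.2 hσ.1⟩
    have a₂ := l₂ (y, σ - 4) ⟨trivial, jm_in.2 (by linarith [hσ.2])⟩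
    exact ⟨p2_n γ u rfl (Line51.rl_injective (a₂.1.trans a₁.1.symm)),
      funext fun b => p2_n γ u rfl (Line51.rl_injective ((a₂.2 b).trans (a₁.2 b).symm))⟩
  have ty : ∀ i, ∃ T, Lt (τ.nb i) m T ∧ StdT T ∧ (i = γ.i → c₁.ty γ.j₁ = T) ∧
      (∀ j, γ.r₁ j i → c₁.ty j = T) ∧ ∀ j, γ.r₂ j i → c₂.ty j = T := fun i => by
    obtain rfl | ⟨j, q⟩ | ⟨j, q⟩ := γ.sur i
    · refine ⟨_, ?_, c₁.std γ.j₁, fun _ => rfl, fun j q => ((γ.c₁ _ _ q).2.1 rfl).elim,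
        fun j q => ((γ.c₂ _ _ q).2.1 rfl).elim⟩
      rw [γ.h]
      refine ⟨ec, cl, hT, fun z hz => ?_⟩
      have a₁ := l₁ z ⟨trivial, jm_out.2 (jm_none.1 hz.2).1⟩
      have k := n z.1 z.2 hz.2
      exact ⟨(congrArg Line51.rl k.1).trans a₁.1, fun b => (congrArg Line51.rl (congrFun k.2 b)).trans (a₁.2 b)⟩
    · exact ⟨_, lt_cor (γ.c₁ _ _ q).2.2 (lt_mm _ j) (l.mono fun p hp => (off_l γ q hp).trans_lt (by norm_num)),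
        c₁.std j, fun e => ((γ.c₁ _ _ q).2.1 e).elim, fun j' q' => by rw [(γ.inj₁ _ _ _ _ q q').2 rfl],
        fun j' q' => (γ.dj _ _ _ q q').elim⟩
    · exact ⟨_, lt_cor (γ.c₂ _ _ q).2.2 (lt_mm _ j)
        (r.mono fun p hp => lt_of_lt_of_le (by norm_num) (off_r γ q hp)), c₂.std j,
        fun e => ((γ.c₂ _ _ q).2.1 e).elim, fun j' q' => (γ.dj _ _ _ q' q).elim,
        fun j' q' => by rw [(γ.inj₂ _ _ _ _ q q').2 rfl]⟩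
  choose T t1 t2 t3 t4 t5 using ty
  choose e s q lit using t1
  refine ⟨⟨e, s, fun i => q i ▸ t2 i, m, lit⟩, ⟨(t3 _ rfl).trans (q _), h.symm.trans ((t3 _ rfl).trans (q _)),
    fun j i a => (t4 i j a).trans (q i), fun j i a => (t5 i j a).trans (q i), l, r⟩,
    Gm56.on_of_local fun x _ => ?_⟩
  by_cases hx : γ.g.n.tm x < 7 / 2
  · have key : ∀ x, γ.g.n.tm x < 7 / 2 → fP (β.e 0) x = fP (β₁.e 0) (γ.g.l.symm x) ∧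
        m.p x = c₁.m.p (γ.g.l.symm x) ∧ m.r x = c₁.m.r (γ.g.l.symm x) := fun x hx => by
      by_cases h' : γ.g.n.tm x < 3 / 2
      · obtain ⟨p, hp, rfl⟩ := ex_l γ h'
        rw [show γ.g.l.symm (γ.g.l p) = p from γ.g.l.left_inv (s_l γ hp)]
        exact ⟨G.P_l 0 hp, l p hp⟩
      obtain ⟨y, σ, e, rfl⟩ := ex_n γ (x := x) ⟨by linarith, by linarith⟩
      have u : σ ∈ Jm none (1 / 2) := jm_none.2 ⟨by linarith, by linarith⟩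
      rw [sy_l γ y ⟨by linarith, by linarith⟩]
      refine ⟨?_, n y σ u⟩
      have R := G.n 0
      have R₁ := β₁.lit 0 γ.j₁ (by rw [show τ₁.sw _ _ _ = _ from v_l γ β₁ _]; norm_num)
      generalize τ₁.sw β₁.wl 0 γ.j₁ = v at R₁
      rw [γ.h] at R
      rw [γ.h₁] at R₁
      exact Matrix.ext fun b c => (rl_P R (by norm_num) (x := (y, σ)) ⟨trivial, u⟩ b c).trans
        (rl_P R₁ (by norm_num) (x := (y, σ)) ⟨trivial, jm_out.2 (jm_none.1 u).1⟩ b c).symm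
    refine ⟨γ.g.n.tm ⁻¹' Iio (7 / 2), hx, LE.on (fun x hx => (key x hx).2)
      (isOpen_Iio.preimage γ.g.n.cont) ((c₁.mon.comp (fun x hx => (ld_pd γ.g.l.symm
        ((mem_lt γ.g).2 (lt_trans hx (by norm_num)))).contMDiffAt) (mapsTo_univ _ _)).congr
        fun x hx => (key x hx).1)⟩
  · have key : ∀ x, 5 / 2 < γ.g.n.tm x → fP (β.e 0) x = fP (β₂.e 0) (γ.g.r.symm x) ∧
        m.p x = c₂.m.p (γ.g.r.symm x) ∧ m.r x = c₂.m.r (γ.g.r.symm x) := fun x hx => by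
      obtain ⟨p, hp, rfl⟩ := ex_r γ hx
      rw [show γ.g.r.symm (γ.g.r p) = p from γ.g.r.left_inv (s_r γ hp)]
      exact ⟨G.P_r 0 hp, r p hp⟩
    refine ⟨γ.g.n.tm ⁻¹' Ioi (5 / 2), show 5 / 2 < γ.g.n.tm x by linarith, LE.on (fun x hx => (key x hx).2)
      (isOpen_Ioi.preimage γ.g.n.cont) ((c₂.mon.comp (fun x hx => (ld_pd γ.g.r.symm
        ((mem_rt γ.g).2 (lt_trans (by norm_num) hx))).contMDiffAt) (mapsTo_univ _ _)).congr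
        fun x hx => (key x hx).1)⟩

theorem jc_par {ν : Type} [Fintype ν] {f : Tk k₁ → R4 → Eu ν} (h : JC univ f) (ι : Fin k₁ → Fin k) :
    JC univ fun t : Tk k => f (t ∘ ι) :=
  ⟨h.1.comp ((sm_comp ι).prodMap contDiff_id).contDiffOn fun _ _ => ⟨trivial, trivial⟩,
    h.2.imp fun _ h => ⟨h.1, fun _ _ => h.2 _ trivial⟩⟩

variable (κ μ) in
/-- **E-GLU** -/
theorem glu : GluStmt κ μ := by
  refine ⟨fun γ _ _ _ => glu_b γ, fun {X X₁ X₂ τ τ₁ τ₂} γ k k₁ k₂ β β₁ β₂ a ι₁ ι₂ c₁ c₂ B F h => ?_⟩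
  have G : GE γ β₁ β₂ a ι₁ ι₂ β.e := ⟨fun t => (F t).l, fun t => (F t).r, fun t => (F t).n⟩
  have w : GW γ β₁ β₂ a ι₁ ι₂ β.wl := ⟨B.bij, B.wl, B.w₁, B.w₂⟩
  obtain ⟨M, hM, mon⟩ := exists_gm G c₁ c₂ h
  have a₁ : ∀ t, 1 < β₁.v t γ.j₁ := fun t => by rw [v_l]; norm_num
  have a₂ : ∀ t, 1 < β₂.v t γ.j₂ := fun t => by rw [v_r]; norm_num
  have s₁ : ∀ t, Cs _ 2 (γ.k₁.tm ⁻¹' Iic 1) (c₁.fo t) := fun t => ⟨(c₁.cs t).cl, (c₁.cs t).hc,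
    closure_minimal (fun p hp => le_of_not_gt fun q => hp (c₁.f0 t _ (a₁ t) p (mem_U₁ γ q)))
      (isClosed_Iic.preimage γ.k₁.cont)⟩
  have s₂ : ∀ t, Cs _ 2 (γ.k₂.tm ⁻¹' Ici (-1)) (c₂.fo t) := fun t => ⟨(c₂.cs t).cl, (c₂.cs t).hc,
    closure_minimal (fun p hp => le_of_not_gt fun q => hp (c₂.f0 t _ (a₂ t) p (mem_U₂ γ q)))
      (isClosed_Ici.preimage γ.k₂.cont)⟩
  have fm := fun t : Tk k => Pen22.fm γ.g (s₁ (t ∘ ι₁)) (s₂ (t ∘ ι₂))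
  have fn : ∀ t : Tk k, ∀ x ∈ (τ.nb γ.i).U 0,
      (psh γ.g.l (c₁.fo (t ∘ ι₁)) + psh γ.g.r (c₂.fo (t ∘ ι₂))) x = 0 := fun t x hx => by
    have u := (mem_U γ).1 hx
    rw [Pi.add_apply, (cs_l γ.g (s₁ _)).eq_zero fun q => by linarith [u.1, mem_Iic.1 (mem_preimage.1 q)],
      (cs_r γ.g (s₂ _)).eq_zero fun q => by linarith [u.2, mem_Ici.1 (mem_preimage.1 q)], add_zero]
  have mn : ∀ t : Tk k, ∀ x ∈ (τ.nb γ.i).U 0, p2 γ (c₁.mc (t ∘ ι₁)) (c₂.mc (t ∘ ι₂)) x = 0 := fun t x hx => by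
    have u := (mem_U γ).1 hx
    obtain ⟨y, σ, e, rfl⟩ := ex_n γ (x := x) ⟨by linarith [u.1], by linarith [u.2]⟩
    refine p2_n γ ⟨by linarith [u.1], by linarith [u.2]⟩ (c₁.m0 _ _ (a₁ _) _ (mem_U₁ γ ?_))
      (c₂.m0 _ _ (a₂ _) _ (mem_U₂ γ ?_))
    · rw [tm_k γ.k₁ y (show σ ∈ Ioi 0 from show 0 < σ by linarith [u.1])]; linarith [u.1]
    · rw [tm_k γ.k₂ y (show σ - 4 ∈ Iio 0 from show σ - 4 < 0 by linarith [u.2])]; linarith [u.2]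
  have p₁ := fun p hp => pp_rel (β := β) (m := M.m) (G.o_l 0 (p := p) hp) (hM.l p hp)
  have p₂ := fun p hp => pp_rel (β := β) (m := M.m) (G.o_r 0 (p := p) hp) (hM.r p hp)
  refine ⟨{
    toMM := M, mon := mon
    fo := fun t => psh γ.g.l (c₁.fo (t ∘ ι₁)) + psh γ.g.r (c₂.fo (t ∘ ι₂))
    cs := fun t => ((cs_l γ.g (s₁ _)).mono (subset_univ _)).add ((cs_r γ.g (s₂ _)).mono (subset_univ _))
    sf := js3 γ c₁.sf c₂.sf (fun t p hp => cmp_rel (G.l 0 p hp) ((fm t).1 p (by linarith)))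
      (fun t p hp => cmp_rel (G.r 0 p hp) ((fm t).2 p (by linarith))) fun t x hx => cmp_zero (fn t x hx)
    f0 := fun t i hi x hx => ?_
    mc := fun t => p2 γ (c₁.mc (t ∘ ι₁)) (c₂.mc (t ∘ ι₂))
    smc := js3 γ c₁.smc c₂.smc (fun _ _ => p2_l γ _ _) (fun _ _ => p2_r γ _ _) mn
    mJ := fun t x => ?_
    mp := fun t x => ?_
    m0 := fun t i hi x hx => ?_
    η := fun t j => Sum.elim (c₁.η (t ∘ ι₁)) (c₂.η (t ∘ ι₂)) (γ.ec.symm j)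
    jc := fun j => ?_
    tst := fun t j => ?_ }, hM, fun t => ⟨fm t, fun _ => p2_l γ _ _, fun _ => p2_r γ _ _, mn t,
      fun j => by simp only [Equiv.symm_apply_apply, Sum.elim_inl],
      fun j => by simp only [Equiv.symm_apply_apply, Sum.elim_inr]⟩⟩
  · obtain ⟨j, p, a, b, hp, rfl⟩ | ⟨j, p, a, b, hp, rfl⟩ | u := act3 w hi hx
    · exact eq_of_pm (f' := 0) γ.g.l (s_l γ hp) (((fm t).1 p (by linarith)).trans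
        ((c₁.f0 _ j a p b).trans (pm_off rfl).symm))
    · exact eq_of_pm (f' := 0) γ.g.r (s_r γ hp) (((fm t).2 p (by linarith)).trans
        ((c₂.f0 _ j a p b).trans (pm_off rfl).symm))
    · exact fn t x u
  · unfold p2
    split_ifs
    exacts [c₁.mJ _ _, c₂.mJ _ _]
  · obtain ⟨p, hp, rfl⟩ | ⟨p, hp, rfl⟩ | u := cov3 γ x
    · rw [p2_l γ _ _ hp, (p₁ p hp).1, (p₁ p hp).2, c₁.mp]
    · rw [p2_r γ _ _ hp, (p₂ p hp).1, (p₂ p hp).2, c₂.mp]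
    · rw [mn t x u, mul_zero, zero_mul]
  · obtain ⟨j, p, a, b, hp, rfl⟩ | ⟨j, p, a, b, hp, rfl⟩ | u := act3 w hi hx
    exacts [(p2_l γ _ _ hp).trans (c₁.m0 _ j a p b), (p2_r γ _ _ hp).trans (c₂.m0 _ j a p b), mn t x u]
  · obtain ⟨j | j, rfl⟩ := γ.ec.surjective j <;> simp only [Equiv.symm_apply_apply, Sum.elim_inl, Sum.elim_inr]
    exacts [jc_par (c₁.jc j) ι₁, jc_par (c₂.jc j) ι₂]
  · obtain ⟨j | j, rfl⟩ := γ.ec.surjective j <;> simp only [Equiv.symm_apply_apply, Sum.elim_inl, Sum.elim_inr]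
    · exact ⟨(c₁.tst _ j).sm, (c₁.tst _ j).cpt, fun y => by
        rw [γ.b₁, (p₁ _ (bx_l γ j y)).2]; exact (c₁.tst _ j).pos y⟩
    · exact ⟨(c₂.tst _ j).sm, (c₂.tst _ j).cpt, fun y => by
        rw [γ.b₂, (p₂ _ (bx_r γ j y)).2]; exact (c₂.tst _ j).pos y⟩

end Crest.Agent.X212.Emo56
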