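import Crest.Agent.X212.Emo56.Cgl
import Crest.Agent.X212.Emo56.Ext
import Crest.Agent.X212.Rob53.PzA
import Crest.Agent.X212.Lr83.Lit

/-!
# Row 212, GEO engine (helper56): E-GLU, part A: glued frames
-/

set_option autoImplicit false
set_option linter.unusedSectionVars false
noncomputable section
open scoped Manifold ContDiff Topology
open Set Function Filter

namespace Crest.Agent.X212.Emo56
open An Cyf70 Sw Flo2 Geo28 Met55 Sw87.Mo Pen22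
open Rob53.Pz (ld_k rl_e rl_P rl_o ld_cy cy_st)
open Rod53 (ld_pd)
open Int54 (oc volF)
open Prm93 (JAt)

variable {κ : Type} [Fintype κ] [DecidableEq κ] {X X₁ X₂ : M4} {k k₁ k₂ : ℕ}
  {τ : MT κ X} {τ₁ : MT κ X₁} {τ₂ : MT κ X₂}

/-! ### the stretched frame -/

theorem sd_one (v : ℝ) {σ : ℝ} (h : σ < 3 / 2 ∨ 5 / 2 < σ) : sd v σ = 1 := by
  have : deriv bt σ = 0 := by
    rcases h with h | h
    · exact (EventuallyEq.deriv_eq ((gt_mem_nhds h).mono fun _ k => bt_lo k.le)).trans (deriv_const _ _)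
    · exact (EventuallyEq.deriv_eq ((lt_mem_nhds h).mono fun _ k => bt_hi k.le)).trans (deriv_const _ _)
  rw [sd, this, mul_zero, add_zero]

theorem nf_ce (e : ET κ) (v : ℝ) {z : e.A.Y.M × ℝ} (h : z.2 < 3 / 2 ∨ 5 / 2 < z.2) (a : Option κ) :
    e.nf v a z = ce e.D.F.e a z := by
  cases a with
  | none => simp only [ET.nf, sd_one v h, inv_one]; rfl
  | some a => rfl

theorem nf_max (e : ET κ) (v : ℝ) : e.nf (max 0 v) = e.nf v := by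
  rcases le_total 0 v with h | h
  · rw [max_eq_right h]
  · rw [max_eq_left h, e.nf_two (by norm_num), e.nf_two (by linarith)]

theorem vJ_nf (e : ET κ) (c : Fin k) (a : Option κ) (t : Tk k) (z : e.A.Y.M × ℝ) :
    VJ (IC e.A.Y.I) (fun t : Tk k => e.nf (t c) a) t z := by
  cases a with
  | some a => exact VJ.of_fixed ((fat_ce e z).sm (some a))
  | none =>
    have h : ContDiff ℝ ∞ fun q : Tk k × ℝ => (sd (q.1 c) q.2)⁻¹ :=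
      (contDiff_const.add (((len_sm.comp ((contDiff_apply ℝ ℝ c).comp contDiff_fst)).sub contDiff_const).mul
        ((bt_sm.iterate_deriv 1).comp contDiff_snd))).inv fun _ => (sd_pos _ _).ne'
    have k : JAt (IC e.A.Y.I) (fun (t : Tk k) (z : e.A.Y.M × ℝ) => (sd (t c) z.2)⁻¹) t z :=
      h.contDiffAt.comp_contMDiffAt (contMDiffAt_fst.prodMk_space (contMDiffAt_snd.comp _ contMDiffAt_snd))
    refine (VJ.smul k (VJ.of_fixed ((fat_ce e z).sm none))).congr (.of_forall fun q => ?_)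
    exact Prod.ext (smul_zero _).symm (mul_one _).symm

theorem rl_sp {b : NB κ X} {e : Option κ → VF X.I X.M} {v d : ℝ} (h : b.Rl e v d) (hd : d ≤ 1) {z}
    (hz : z ∈ b.V d) : Sp (atx e (b.k z)) := by
  rw [← cy_st v z] at hz ⊢
  exact (atx_rel (rl_e h hd hz)).symm ▸
    (fat_ce _ _).sp.map (ld_bij ((ld_cy b.e v _).comp _ _ (ld_k (b.V_sub hd hz)))).2

theorem vJ_rel {E H N : Type} [NormedAddCommGroup E] [NormedSpace ℝ E] [FiniteDimensional ℝ E]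
    [TopologicalSpace H] {I : ModelWithCorners ℝ E H} [TopologicalSpace N] [ChartedSpace H N]
    [IsManifold I ∞ N] (φ : PartialDiffeomorph I X.I N X.M ∞) {W : Set N} (hW : IsOpen W)
    (hs : W ⊆ φ.source) {K : Tk k → Option κ → VF I N} {e : Tk k → Option κ → VF X.I X.M}
    (h : ∀ t, ∀ p ∈ W, ∀ a, mfderiv I X.I φ p (K t a p) = e t a (φ p)) {p} (hp : p ∈ W) {a t}
    (hK : VJ I (fun s => K s a) t p) : VJ X.I (fun s => e s a) t (φ p) := by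
  refine (vJ_pfd (hs hp) hK).congr ?_
  filter_upwards [ev_snd ((φ.toOpenPartialHomeomorph.isOpen_image_of_subset_source hW hs).mem_nhds
    (mem_image_of_mem _ hp))]
  rintro ⟨s, _⟩ ⟨q, hq, rfl⟩
  exact (h s q hq a).symm.trans (pfd_rel (hs hq) a)

/-- a literal frame seen from a shifted chart -/
theorem side_e {e : ET κ} {s s' : Option Bool} {n₁ : Nc e.A X₁ (Jk s)} {n : Nc e.A X (Jk s')} {g : PD X₁ X}
    {δ : ℝ} {e₁ : Option κ → VF X₁.I X₁.M} (h : (⟨e, s, n₁⟩ : NB κ X₁).Rl e₁ 2 (1 / 2)) {y : e.A.Y.M} {σ : ℝ}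
    (hz : σ ∈ Jm s (1 / 2)) (hz' : σ + δ ∈ Jk s') (hg : n₁.k (y, σ) ∈ g.source)
    (ev : ∀ᶠ w in 𝓝 (y, σ), g (n₁.k w) = n.k (w.1, w.2 + δ)) (a : Option κ) :
    mfderiv (IC e.A.Y.I) X.I n.k (y, σ + δ) (ce e.D.F.e a (y, σ + δ)) =
      mfderiv X₁.I X.I g (n₁.k (y, σ)) (e₁ a (n₁.k (y, σ))) := by
  have g0 := ((hasDerivAt_id σ).add_const δ).hasFDerivAt.hasMFDerivAt
  have h0 := (hasMFDerivAt_id (I := e.A.Y.I) y).prodMap (p := (y, σ)) g0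
  have h1 := mfderiv_comp_apply (y, σ) (md_pd g hg)
    (k_md (b := ⟨e, s, n₁⟩) (NB.V_sub _ (by norm_num) ⟨trivial, hz⟩)) (ce e.D.F.e a (y, σ))
  have h2 := mfderiv_comp_apply (f := fun w : e.A.Y.M × ℝ => (w.1, w.2 + δ)) (y, σ)
    (k_md (b := ⟨e, s', n⟩) (n.src.ge ⟨trivial, hz'⟩)) h0.mdifferentiableAt (ce e.D.F.e a (y, σ))
  have h3 : mfderiv (IC e.A.Y.I) (IC e.A.Y.I) (fun w : e.A.Y.M × ℝ => (w.1, w.2 + δ)) (y, σ)
      (ce e.D.F.e a (y, σ)) = ce e.D.F.e a (y, σ + δ) := by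
    refine (congrArg (· (ce e.D.F.e a (y, σ))) h0.mfderiv).trans ?_
    rw [mfderiv_id, g0.mfderiv]
    cases a
    exacts [Prod.ext rfl (one_smul ℝ (1 : ℝ)), Prod.ext rfl (zero_smul ℝ (1 : ℝ))]
  have h4 := h a (y, σ) ⟨trivial, hz⟩
  rw [ET.nf_two _ le_rfl] at h4
  rw [h3] at h2
  exact h2.symm.trans ((DFunLike.congr_fun (EventuallyEq.mfderiv_eq (f₁ := g ∘ n₁.k)
    (f := n.k ∘ fun w : e.A.Y.M × ℝ => (w.1, w.2 + δ)) ev) _).symm.trans (h1.trans (congrArg _ h4)))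

/-- literal frames descend along corresponding bands -/
theorem rl_cor {b₁ : NB κ X₁} {b : NB κ X} {g : PD X₁ X} (h : b₁.Cor b g) {e₁ : Option κ → VF X₁.I X₁.M}
    {e : Option κ → VF X.I X.M} {v : ℝ} (r : b₁.Rl e₁ v (1 / 2)) (q : ∀ p ∈ b₁.k.target, p ∈ g.source ∧
      ∀ a, mfderiv X₁.I X.I g p (e₁ a p) = e a (g p)) : b.Rl e v (1 / 2) := by
  obtain ⟨n, rfl, hn⟩ := h
  intro a z hz
  have e1 : (n.k : _ → X.M) =ᶠ[𝓝 z] g ∘ b₁.k :=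
    eventually_of_mem ((b₁.V_open _).mem_nhds hz) fun y hy => hn y.1 y.2 hy.2
  have m := b₁.V_sub (d := 1 / 2) (by norm_num) hz
  have k := q _ (b₁.k.map_source m)
  refine ((DFunLike.congr_fun e1.mfderiv_eq _).trans
    (mfderiv_comp_apply z (md_pd g k.1) (k_md m) _)).trans ?_
  rw [r a z hz, k.2]
  exact congrArg (e a) e1.self_of_nhds.symm

variable (γ : TG τ τ₁ τ₂)

theorem off_l {j i} (h : γ.r₁ j i) {p} (m : p ∈ (τ₁.nb j).k.target) : γ.k₁.tm p ≤ 0 := by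
  have q := disjoint_left.1 (τ₁.dj (γ.c₁ _ _ h).1) m
  rw [γ.h₁] at q
  exact not_lt.1 fun h => q (γ.k₁.tgt.ge h)

theorem off_r {j i} (h : γ.r₂ j i) {p} (m : p ∈ (τ₂.nb j).k.target) : 0 ≤ γ.k₂.tm p := by
  have q := disjoint_left.1 (τ₂.dj (γ.c₂ _ _ h).1) m
  rw [γ.h₂] at q
  exact not_lt.1 fun h => q (γ.k₂.tgt.ge h)

theorem s_l {p} (h : γ.k₁.tm p < 3 / 2) : p ∈ γ.g.l.source := (mem_l γ.g).2 (by linarith)

theorem s_r {p} (h : -(3 / 2) < γ.k₂.tm p) : p ∈ γ.g.r.source := (mem_r γ.g).2 (by linarith)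

theorem t_l {p} (h : γ.k₁.tm p < 3 / 2) : γ.g.n.tm (γ.g.l p) < 3 / 2 :=
  (img_l γ.g (by norm_num) (by norm_num)).le (mem_image_of_mem _ h)

theorem t_r {p} (h : -(3 / 2) < γ.k₂.tm p) : 5 / 2 < γ.g.n.tm (γ.g.r p) :=
  lt_of_eq_of_lt (by norm_num) ((img_r γ.g (by norm_num) (by norm_num)).le (mem_image_of_mem _ h))

theorem ex_l {x} (h : γ.g.n.tm x < 3 / 2) : ∃ p, γ.k₁.tm p < 3 / 2 ∧ γ.g.l p = x :=
  (img_l γ.g (by norm_num) (by norm_num)).ge h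

theorem ex_r {x} (h : 5 / 2 < γ.g.n.tm x) : ∃ p, -(3 / 2) < γ.k₂.tm p ∧ γ.g.r p = x :=
  (img_r γ.g (by norm_num) (by norm_num)).ge (lt_of_eq_of_lt (by norm_num) h)

theorem mem_U {d : ℝ} {x} : x ∈ (τ.nb γ.i).U d ↔ 1 - d < γ.g.n.tm x ∧ γ.g.n.tm x < 3 + d := by
  rw [γ.h]; exact jm_none

theorem cov3 (x : X.M) : (∃ p, γ.k₁.tm p < 3 / 2 ∧ γ.g.l p = x) ∨
    (∃ p, -(3 / 2) < γ.k₂.tm p ∧ γ.g.r p = x) ∨ x ∈ (τ.nb γ.i).U 0 := by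
  rcases lt_or_ge (γ.g.n.tm x) (3 / 2) with h | h
  · exact .inl (ex_l γ h)
  rcases lt_or_ge (5 / 2) (γ.g.n.tm x) with h' | h'
  · exact .inr (.inl (ex_r γ h'))
  · exact .inr (.inr ((mem_U γ).2 ⟨by linarith, by linarith⟩))

theorem cov3' (x : X.M) : (∃ p, γ.k₁.tm p < 3 / 2 ∧ γ.g.l p = x) ∨
    (∃ p, -(3 / 2) < γ.k₂.tm p ∧ γ.g.r p = x) ∨ ∃ z ∈ (τ.nb γ.i).V (1 / 2), (τ.nb γ.i).k z = x :=
  (cov3 γ x).imp_right (Or.imp_right fun h => exists_k (by norm_num) (NB.U_mono _ (by norm_num) h))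

variable (β₁ : MB τ₁ k₁) (β₂ : MB τ₂ k₂) (c : Fin k) (ι₁ : Fin k₁ → Fin k) (ι₂ : Fin k₂ → Fin k)

theorem v_l (t : Tk k₁) : β₁.v t γ.j₁ = 2 := if_neg (by rw [γ.h₁]; simp)

theorem v_r (t : Tk k₂) : β₂.v t γ.j₂ = 2 := if_neg (by rw [γ.h₂]; simp)

/-- glued frames -/
structure GE (e : Tk k → Option κ → VF X.I X.M) : Prop where
  l : ∀ t x, γ.k₁.tm x < 3 / 2 → ∀ a, mfderiv X₁.I X.I γ.g.l x (β₁.e (t ∘ ι₁) a x) = e t a (γ.g.l x)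
  r : ∀ t x, -(3 / 2) < γ.k₂.tm x → ∀ a, mfderiv X₂.I X.I γ.g.r x (β₂.e (t ∘ ι₂) a x) = e t a (γ.g.r x)
  n : ∀ t, (τ.nb γ.i).Rl (e t) (t c) (1 / 2)

theorem exists_ge : ∃ e, GE γ β₁ β₂ c ι₁ ι₂ e := by
  classical
  let e : Tk k → Option κ → VF X.I X.M := fun t a x =>
    if γ.g.n.tm x < 3 / 2 then pfd γ.g.l (β₁.e (t ∘ ι₁)) a x
    else if 5 / 2 < γ.g.n.tm x then pfd γ.g.r (β₂.e (t ∘ ι₂)) a x else pfd γ.g.n.k (γ.e.nf (t c)) a x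
  have l : ∀ t x, γ.k₁.tm x < 3 / 2 → ∀ a, mfderiv X₁.I X.I γ.g.l x (β₁.e (t ∘ ι₁) a x) = e t a (γ.g.l x) :=
    fun t x h a => (pfd_rel (s_l γ h) a).trans (if_pos (t_l γ h)).symm
  have r : ∀ t x, -(3 / 2) < γ.k₂.tm x → ∀ a,
      mfderiv X₂.I X.I γ.g.r x (β₂.e (t ∘ ι₂) a x) = e t a (γ.g.r x) := fun t x h a =>
    (pfd_rel (s_r γ h) a).trans ((if_neg (by linarith [t_r γ h])).trans (if_pos (t_r γ h))).symm
  refine ⟨e, l, r, fun t => ?_⟩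
  rw [γ.h]
  rintro a ⟨y, σ⟩ ⟨-, hz⟩
  replace hz := jm_none.1 hz
  have m : σ ∈ Ioo (0 : ℝ) 4 := ⟨by linarith [hz.1], by linarith [hz.2]⟩
  have o : ∀ᶠ w : γ.e.A.Y.M × ℝ in 𝓝 (y, σ), w.2 ∈ Ioo (0 : ℝ) 4 :=
    continuous_snd.continuousAt.eventually_mem (isOpen_Ioo.mem_nhds m)
  by_cases h : σ < 3 / 2
  · have L := β₁.lit (t ∘ ι₁) γ.j₁ (by rw [show τ₁.sw _ _ _ = _ from v_l γ β₁ _]; norm_num)
    rw [show τ₁.sw _ _ _ = _ from v_l γ β₁ _, γ.h₁] at L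
    have q : γ.k₁.tm (γ.k₁.k (y, σ)) < 3 / 2 := (tm_k γ.k₁ y m.1).trans_lt h
    have := side_e (s' := none) (n := γ.g.n) (δ := 0) L (jm_out.2 hz.1) (by rwa [add_zero]) (s_l γ q)
      (o.mono fun w hw => by rw [add_zero]; exact γ.g.ol _ _ hw) a
    rw [add_zero, l t _ q, γ.g.ol y σ m] at this
    exact (congrArg _ (nf_ce _ _ (.inl h) a)).trans this
  by_cases h' : 5 / 2 < σ
  · have L := β₂.lit (t ∘ ι₂) γ.j₂ (by rw [show τ₂.sw _ _ _ = _ from v_r γ β₂ _]; norm_num)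
    rw [show τ₂.sw _ _ _ = _ from v_r γ β₂ _, γ.h₂] at L
    have q : -(3 / 2) < γ.k₂.tm (γ.k₂.k (y, σ - 4)) := by
      rw [tm_k γ.k₂ y (show σ - 4 ∈ Iio 0 from sub_neg.2 m.2)]; linarith
    have o' : ∀ᶠ w : γ.e.A.Y.M × ℝ in 𝓝 (y, σ - 4), w.2 + 4 ∈ Ioo (0 : ℝ) 4 :=
      (continuous_snd.add continuous_const).continuousAt.eventually_mem
        (isOpen_Ioo.mem_nhds (by simpa using m))
    have := side_e (s' := none) (n := γ.g.n) (δ := 4) L (jm_in.2 (by linarith [hz.2]))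
      (by rwa [sub_add_cancel]) (s_r γ q)
      (o'.mono fun w hw => by have := γ.g.or w.1 _ hw; rwa [add_sub_cancel_right] at this) a
    rw [sub_add_cancel, r t _ q, γ.g.or y σ m] at this
    exact (congrArg _ (nf_ce _ _ (.inr h') a)).trans this
  · have q : γ.g.n.tm (γ.g.n.k (y, σ)) = σ := tm_k _ y m
    exact (pfd_rel (φ := γ.g.n.k) (γ.g.n.src.ge ⟨trivial, m⟩) a).trans
      ((if_neg (q.symm ▸ h)).trans (if_neg (q.symm ▸ h'))).symm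

/-- glued walls -/
structure GW (wl : Fin k → Option τ.N) : Prop where
  bij : Bijective (Sum.elim (Sum.elim ι₁ ι₂) fun _ : Unit => c)
  wl0 : wl c = some γ.i
  w₁ : ∀ c', (β₁.wl c' = none ∧ wl (ι₁ c') = none) ∨ ∃ j ∈ β₁.wl c', ∃ i' ∈ wl (ι₁ c'), γ.r₁ j i'
  w₂ : ∀ c', (β₂.wl c' = none ∧ wl (ι₂ c') = none) ∨ ∃ j ∈ β₂.wl c', ∃ i' ∈ wl (ι₂ c'), γ.r₂ j i'

variable {γ β₁ β₂ c ι₁ ι₂} {wl : Fin k → Option τ.N}

namespace GW
variable (h : GW γ β₁ β₂ c ι₁ ι₂ wl)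
include h

theorem cas (d : Fin k) : (∃ a, ι₁ a = d) ∨ (∃ a, ι₂ a = d) ∨ c = d := by
  obtain ⟨(a | a) | a, e⟩ := h.bij.2 d
  exacts [.inl ⟨a, e⟩, .inr (.inl ⟨a, e⟩), .inr (.inr e)]

theorem i₁ : Injective ι₁ := fun x y e => by simpa using h.bij.1 (a₁ := .inl (.inl x)) (a₂ := .inl (.inl y)) e

theorem i₂ : Injective ι₂ := fun x y e => by simpa using h.bij.1 (a₁ := .inl (.inr x)) (a₂ := .inl (.inr y)) e

theorem n₁₂ (x y) : ι₁ x ≠ ι₂ y := fun e => by simpa using h.bij.1 (a₁ := .inl (.inl x)) (a₂ := .inl (.inr y)) e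

theorem n₁ (x) : ι₁ x ≠ c := fun e => by simpa using h.bij.1 (a₁ := .inl (.inl x)) (a₂ := .inr ()) e

theorem n₂ (x) : ι₂ x ≠ c := fun e => by simpa using h.bij.1 (a₁ := .inl (.inr x)) (a₂ := .inr ()) e

theorem e₁ {a i} (e : wl (ι₁ a) = some i) : ∃ j, β₁.wl a = some j ∧ γ.r₁ j i := by
  rcases h.w₁ a with ⟨-, b⟩ | ⟨j, b, i', b', q⟩
  exacts [(nomatch e.symm.trans b), ⟨j, b, Option.some.inj (e.symm.trans b') ▸ q⟩]

theorem e₂ {a i} (e : wl (ι₂ a) = some i) : ∃ j, β₂.wl a = some j ∧ γ.r₂ j i := by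
  rcases h.w₂ a with ⟨-, b⟩ | ⟨j, b, i', b', q⟩
  exacts [(nomatch e.symm.trans b), ⟨j, b, Option.some.inj (e.symm.trans b') ▸ q⟩]

theorem inj (d d' : Fin k) (i : τ.N) (e : wl d = some i) (e' : wl d' = some i) : d = d' := by
  have z : ∀ {i}, wl c = some i → i = γ.i := fun e => Option.some.inj (e.symm.trans h.wl0)
  obtain ⟨a, rfl⟩ | ⟨a, rfl⟩ | rfl := h.cas d <;> obtain ⟨a', rfl⟩ | ⟨a', rfl⟩ | rfl := h.cas d'
  · obtain ⟨j, b, q⟩ := h.e₁ e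
    obtain ⟨j', b', q'⟩ := h.e₁ e'
    rw [β₁.inj _ _ _ b ((γ.inj₁ _ _ _ _ q q').2 rfl ▸ b')]
  · exact (γ.dj _ _ _ (h.e₁ e).choose_spec.2 (h.e₂ e').choose_spec.2).elim
  · exact ((γ.c₁ _ _ (h.e₁ e).choose_spec.2).2.1 (z e')).elim
  · exact (γ.dj _ _ _ (h.e₁ e').choose_spec.2 (h.e₂ e).choose_spec.2).elim
  · obtain ⟨j, b, q⟩ := h.e₂ e
    obtain ⟨j', b', q'⟩ := h.e₂ e'
    rw [β₂.inj _ _ _ b ((γ.inj₂ _ _ _ _ q q').2 rfl ▸ b')]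
  · exact ((γ.c₂ _ _ (h.e₂ e).choose_spec.2).2.1 (z e')).elim
  · exact ((γ.c₁ _ _ (h.e₁ e').choose_spec.2).2.1 (z e)).elim
  · exact ((γ.c₂ _ _ (h.e₂ e').choose_spec.2).2.1 (z e)).elim
  · rfl

theorem sw0 (t : Tk k) : τ.sw wl t γ.i = t c := (if_pos (by rw [γ.h])).trans
  ((Finset.sum_eq_single c (fun _ _ n => if_neg fun e => n (h.inj _ _ _ e h.wl0)) (by simp)).trans
    (if_pos h.wl0))

theorem sw₁ {j i} (q : γ.r₁ j i) (t : Tk k) : τ.sw wl t i = β₁.v (t ∘ ι₁) j := by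
  obtain ⟨n', hb, -⟩ := (γ.c₁ _ _ q).2.2
  unfold MB.v MT.sw
  rw [show (τ.nb i).s = (τ₁.nb j).s from congrArg (·.s) hb]
  congr 1
  refine Lr83.sum_rel (fun c' c => ι₁ c' = c) (by rintro _ _ _ _ rfl rfl; exact h.i₁.eq_iff.symm) ?_
    (fun d n => if_neg fun e => ?_) fun c' e => (e _ rfl).elim
  · rintro a _ rfl
    refine if_congr ?_ rfl rfl
    rcases h.w₁ a with ⟨a, b⟩ | ⟨j', a, i', b, e⟩
    · simp [a, b]
    · rw [show _ = _ from a, show _ = _ from b, Option.some_inj, Option.some_inj, γ.inj₁ _ _ _ _ e q]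
  · obtain ⟨a, rfl⟩ | ⟨a, rfl⟩ | rfl := h.cas d
    exacts [n a rfl, γ.dj _ _ _ q (h.e₂ e).choose_spec.2,
      (γ.c₁ _ _ q).2.1 (Option.some.inj (e.symm.trans h.wl0))]

theorem sw₂ {j i} (q : γ.r₂ j i) (t : Tk k) : τ.sw wl t i = β₂.v (t ∘ ι₂) j := by
  obtain ⟨n', hb, -⟩ := (γ.c₂ _ _ q).2.2
  unfold MB.v MT.sw
  rw [show (τ.nb i).s = (τ₂.nb j).s from congrArg (·.s) hb]
  congr 1
  refine Lr83.sum_rel (fun c' c => ι₂ c' = c) (by rintro _ _ _ _ rfl rfl; exact h.i₂.eq_iff.symm) ?_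
    (fun d n => if_neg fun e => ?_) fun c' e => (e _ rfl).elim
  · rintro a _ rfl
    refine if_congr ?_ rfl rfl
    rcases h.w₂ a with ⟨a, b⟩ | ⟨j', a, i', b, e⟩
    · simp [a, b]
    · rw [show _ = _ from a, show _ = _ from b, Option.some_inj, Option.some_inj, γ.inj₂ _ _ _ _ e q]
  · obtain ⟨a, rfl⟩ | ⟨a, rfl⟩ | rfl := h.cas d
    exacts [γ.dj _ _ _ (h.e₁ e).choose_spec.2 q, n a rfl,
      (γ.c₂ _ _ q).2.1 (Option.some.inj (e.symm.trans h.wl0))]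

theorem clp₁ (t : Tk k) : clp wl t ∘ ι₁ = clp β₁.wl (t ∘ ι₁) := funext fun a => by
  rcases h.w₁ a with ⟨a, b⟩ | ⟨j', a, i', b, -⟩ <;>
    simp only [clp, comp_apply, show _ = _ from a, show _ = _ from b, Option.elim]

theorem clp₂ (t : Tk k) : clp wl t ∘ ι₂ = clp β₂.wl (t ∘ ι₂) := funext fun a => by
  rcases h.w₂ a with ⟨a, b⟩ | ⟨j', a, i', b, -⟩ <;>
    simp only [clp, comp_apply, show _ = _ from a, show _ = _ from b, Option.elim]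

end GW

theorem cor_tm {b₁ : NB κ X₁} {b : NB κ X} {φ : X₁.M → X.M} (h : b₁.Cor b φ) (s : b₁.s = none) {p}
    (q : b.n.tm (φ p) ∉ Icc (3 / 2 : ℝ) (5 / 2)) : b₁.n.tm p ∉ Icc (3 / 2 : ℝ) (5 / 2) := fun m => by
  obtain ⟨n, rfl, hn⟩ := h
  have u : b₁.n.tm p ∈ Jm b₁.s (1 / 2) :=
    (congrArg (Jm · (1 / 2)) s).ge (jm_none.2 ⟨by linarith [m.1], by linarith [m.2]⟩)
  obtain ⟨y, hy⟩ := Pen22.exists_k b₁.n (jm_sub _ (by norm_num) u)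
  rw [← hy, ← hn y _ u, tm_k n y (jm_sub _ (by norm_num) u)] at q
  exact q m

theorem sm_comp (ι : Fin k₁ → Fin k) : ContDiff ℝ ∞ fun t : Tk k => t ∘ ι :=
  contDiff_pi.2 fun _ => contDiff_apply _ _ _

section mb
variable {e : Tk k → Option κ → VF X.I X.M} (h : GE γ β₁ β₂ c ι₁ ι₂ e)
include h

theorem GE.sm (a t x) : VJ X.I (fun s => e s a) t x := by
  obtain ⟨p, hp, rfl⟩ | ⟨p, hp, rfl⟩ | ⟨z, hz, rfl⟩ := cov3' γ x
  · exact vJ_rel γ.g.l (isOpen_Iio.preimage γ.k₁.cont) (fun _ => s_l γ) h.l hp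
      (VJ.reparam (X := fun s => β₁.e s a) (sm_comp ι₁).contDiffAt (β₁.sm a _ p))
  · exact vJ_rel γ.g.r (isOpen_Ioi.preimage γ.k₂.cont) (fun _ => s_r γ) h.r hp
      (VJ.reparam (X := fun s => β₂.e s a) (sm_comp ι₂).contDiffAt (β₂.sm a _ p))
  · exact vJ_rel (τ.nb γ.i).n.k (NB.V_open _ _) (NB.V_sub _ (by norm_num))
      (fun t p hp a => h.n t a p hp) hz (vJ_nf _ c a t z)

theorem GE.sp (t x) : Sp (atx (e t) x) := by
  obtain ⟨p, hp, rfl⟩ | ⟨p, hp, rfl⟩ | ⟨z, hz, rfl⟩ := cov3' γ x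
  · rw [atx_rel (h.l t p hp)]; exact (β₁.sp _ p).map (ld_bij (ld_pd _ (s_l γ hp))).2
  · rw [atx_rel (h.r t p hp)]; exact (β₂.sp _ p).map (ld_bij (ld_pd _ (s_r γ hp))).2
  · exact rl_sp (h.n t) (by norm_num) hz

theorem GE.P_l (t) {p} (hp : γ.k₁.tm p < 3 / 2) : fP (e t) (γ.g.l p) = fP (β₁.e 0) p :=
  (fP_rel (ld_pd _ (s_l γ hp)) (β₁.sp _ p) (h.l t p hp)).symm.trans (β₁.P _ p)

theorem GE.P_r (t) {p} (hp : -(3 / 2) < γ.k₂.tm p) : fP (e t) (γ.g.r p) = fP (β₂.e 0) p :=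
  (fP_rel (ld_pd _ (s_r γ hp)) (β₂.sp _ p) (h.r t p hp)).symm.trans (β₂.P _ p)

theorem GE.o_l (t) {p} (hp : γ.k₁.tm p < 3 / 2) (a b c d) :
    oc (e t) (volF X.o (e t)) a b c d (γ.g.l p) = β₁.B.o a b c d p := by
  rw [B_o β₁ (t ∘ ι₁)]
  exact M.cf_rel X.X.dim X₁.X.dim (h.l t p hp) (h.sp t _) (β₁.sp _ p)
    ((γ.g.pl p (s_l γ hp)).trans_eq (mul_comm _ _)) _

theorem GE.o_r (t) {p} (hp : -(3 / 2) < γ.k₂.tm p) (a b c d) :
    oc (e t) (volF X.o (e t)) a b c d (γ.g.r p) = β₂.B.o a b c d p := by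
  rw [B_o β₂ (t ∘ ι₂)]
  exact M.cf_rel X.X.dim X₂.X.dim (h.r t p hp) (h.sp t _) (β₂.sp _ p)
    ((γ.g.pr p (s_r γ hp)).trans_eq (mul_comm _ _)) _

theorem GE.ext {t t' x} (l : ∀ p, γ.g.l p = x → ∀ a, β₁.e (t' ∘ ι₁) a p = β₁.e (t ∘ ι₁) a p)
    (r : ∀ p, γ.g.r p = x → ∀ a, β₂.e (t' ∘ ι₂) a p = β₂.e (t ∘ ι₂) a p)
    (n : (τ.nb γ.i).n.tm x ∉ Icc (3 / 2 : ℝ) (5 / 2) ∨ (τ.nb γ.i).e.nf (t' c) = (τ.nb γ.i).e.nf (t c)) (a) :
    e t' a x = e t a x := by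
  obtain ⟨p, hp, rfl⟩ | ⟨p, hp, rfl⟩ | ⟨z, hz, rfl⟩ := cov3' γ x
  · rw [← h.l _ p hp, ← h.l _ p hp, l p rfl]
  · rw [← h.r _ p hp, ← h.r _ p hp, r p rfl]
  · rw [← h.n _ a z hz, ← h.n _ a z hz]
    rcases n with n | n
    · rw [NB.tm_k (NB.V_sub _ (by norm_num) hz), mem_Icc, not_and_or, not_le, not_le] at n
      rw [nf_ce _ _ n, nf_ce _ _ n]
    · rw [n]

/-- the glued family -/
def GE.mb (w : GW γ β₁ β₂ c ι₁ ι₂ wl) : MB τ k where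
  e := e
  wl := wl
  sm := h.sm
  sp := h.sp
  P t x := by
    obtain ⟨p, hp, rfl⟩ | ⟨p, hp, rfl⟩ | ⟨z, hz, rfl⟩ := cov3' γ x
    exacts [(h.P_l t hp).trans (h.P_l 0 hp).symm, (h.P_r t hp).trans (h.P_r 0 hp).symm, Matrix.ext fun a b =>
      (rl_P (h.n t) (by norm_num) hz a b).trans (rl_P (h.n 0) (by norm_num) hz a b).symm]
  o t := by
    funext a b c d x
    have f : ∀ t x, FAt (e t) x := fun t x => ⟨fun a => (h.sm a t x).right, h.sp t x⟩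
    obtain ⟨p, hp, rfl⟩ | ⟨p, hp, rfl⟩ | ⟨z, hz, rfl⟩ := cov3' γ x
    exacts [(h.o_l t hp a b c d).trans (h.o_l 0 hp a b c d).symm,
      (h.o_r t hp a b c d).trans (h.o_r 0 hp a b c d).symm,
      (rl_o (τ.std _) (f t) (h.n t) (by norm_num) hz a b c d).trans
        (rl_o (τ.std _) (f 0) (h.n 0) (by norm_num) hz a b c d).symm]
  inj := w.inj
  fin d i q := by
    obtain ⟨a, rfl⟩ | ⟨a, rfl⟩ | rfl := w.cas d
    · obtain ⟨j, b, q⟩ := w.e₁ q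
      exact (congrArg (·.s) (γ.c₁ _ _ q).2.2.choose_spec.1).trans (β₁.fin a j b)
    · obtain ⟨j, b, q⟩ := w.e₂ q
      exact (congrArg (·.s) (γ.c₂ _ _ q).2.2.choose_spec.1).trans (β₂.fin a j b)
    · rw [Option.some.inj (q.symm.trans w.wl0), γ.h]
  lit t i a := by
    obtain rfl | ⟨j, q⟩ | ⟨j, q⟩ := γ.sur i
    · rw [w.sw0]; exact h.n t
    · rw [w.sw₁ q] at a ⊢
      exact rl_cor (γ.c₁ _ _ q).2.2 (β₁.lit _ j a) fun p m =>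
        have k := (off_l γ q m).trans_lt (show (0 : ℝ) < 3 / 2 by norm_num); ⟨s_l γ k, h.l t p k⟩
    · rw [w.sw₂ q] at a ⊢
      exact rl_cor (γ.c₂ _ _ q).2.2 (β₂.lit _ j a) fun p m =>
        have k := (show -(3 / 2 : ℝ) < 0 by norm_num).trans_le (off_r γ q m); ⟨s_r γ k, h.r t p k⟩
  loc d i q t v a b x hx := by
    obtain ⟨d, rfl⟩ | ⟨d, rfl⟩ | rfl := w.cas d
    · obtain ⟨j, u, q⟩ := w.e₁ q
      refine h.ext (fun p hp => ?_) (fun p _ _ => ?_) (.inr (by rw [update_of_ne (w.n₁ d).symm]))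
      · rw [update_comp_eq_of_injective _ w.i₁]
        exact β₁.loc d j u _ v a b p (cor_tm (γ.c₁ _ _ q).2.2 (β₁.fin d j u) (hp ▸ hx))
      · rw [update_comp_eq_of_forall_ne _ _ fun y => (w.n₁₂ d y).symm]
    · obtain ⟨j, u, q⟩ := w.e₂ q
      refine h.ext (fun p _ _ => ?_) (fun p hp => ?_) (.inr (by rw [update_of_ne (w.n₂ d).symm]))
      · rw [update_comp_eq_of_forall_ne _ _ fun y => w.n₁₂ y d]
      · rw [update_comp_eq_of_injective _ w.i₂]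
        exact β₂.loc d j u _ v a b p (cor_tm (γ.c₂ _ _ q).2.2 (β₂.fin d j u) (hp ▸ hx))
    · refine h.ext (fun p _ _ => ?_) (fun p _ _ => ?_) (.inl (Option.some.inj (q.symm.trans w.wl0) ▸ hx))
      · rw [update_comp_eq_of_forall_ne _ _ w.n₁]
      · rw [update_comp_eq_of_forall_ne _ _ w.n₂]
  ret t := funext₂ fun a x => h.ext (fun p _ _ => by rw [w.clp₁, ← β₁.ret]) (fun p _ _ => by rw [w.clp₂, ← β₂.ret])
    (.inr (by rw [clp, w.wl0]; exact (nf_max _ _).symm)) a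

end mb

/-- **E-GLU**, frames -/
theorem glu_b (γ : TG τ τ₁ τ₂) (β₁ : MB τ₁ k₁) (β₂ : MB τ₂ k₂) (a : Fin k) (ι₁ ι₂)
    (bij : Bijective (Sum.elim (Sum.elim ι₁ ι₂) fun _ : Unit => a))
    (h₁ : ∀ c, ∀ j ∈ β₁.wl c, ∃ i, γ.r₁ j i) (h₂ : ∀ c, ∀ j ∈ β₂.wl c, ∃ i, γ.r₂ j i) :
    ∃ β : MB τ k, γ.GB β β₁ β₂ a ι₁ ι₂ ∧ ∀ t, γ.GF β β₁ β₂ a ι₁ ι₂ t := by
  have key : ∀ {N : Type} {o : Option N} {r : N → τ.N → Prop}, (∀ j ∈ o, ∃ i, r j i) →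
      ∃ f : Option τ.N, (o = none ∧ f = none) ∨ ∃ j ∈ o, ∃ i ∈ f, r j i := fun {_ o _} h => by
    rcases o with _ | j
    exacts [⟨none, .inl ⟨rfl, rfl⟩⟩, let ⟨i, q⟩ := h j rfl; ⟨some i, .inr ⟨j, rfl, i, rfl, q⟩⟩]
  choose f₁ q₁ using fun c => key (h₁ c)
  choose f₂ q₂ using fun c => key (h₂ c)
  let E := Equiv.ofBijective _ bij
  obtain ⟨wl, u⟩ : ∃ wl : Fin k → Option τ.N, ∀ s, wl (E s) = Sum.elim (Sum.elim f₁ f₂) (fun _ => some γ.i) s :=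
    ⟨fun d => Sum.elim (Sum.elim f₁ f₂) (fun _ => some γ.i) (E.symm d), fun s => by simp only [E.symm_apply_apply]⟩
  have w : GW γ β₁ β₂ a ι₁ ι₂ wl := ⟨bij, u (.inr ()),
    fun c => by rw [show wl (ι₁ c) = f₁ c from u (.inl (.inl c))]; exact q₁ c,
    fun c => by rw [show wl (ι₂ c) = f₂ c from u (.inl (.inr c))]; exact q₂ c⟩
  obtain ⟨e, h⟩ := exists_ge γ β₁ β₂ a ι₁ ι₂
  exact ⟨h.mb w, ⟨bij, w.wl0, w.w₁, w.w₂⟩, fun t => ⟨h.l t, h.r t, h.n t⟩⟩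

end Crest.Agent.X212.Emo56
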