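import Crest.Agent.X212.Sw87.MoL

/-!
# Row 212, GEO engine (helper56): isomorphisms of models

`geq` : an isometry of models is an equivalence of geometries.  `mi0` : the module part.
`exu` : E-EXU.
-/

set_option autoImplicit false
set_option linter.unusedSectionVars false
noncomputable section
open scoped Manifold ContDiff Topology InnerProductSpace
open MeasureTheory Set Function Filter

namespace Crest.Agent.X212.Emo56
open An Cyf70 Sw Flo2 Geo28 Met55 Sw87.Mo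
open Lab56 (C8 M8 CI Cls)
open Int54 (oc volF)
open Line51 (iL rl)
open Gm56 (Rp LE alp MI0)

variable {κ : Type} [Fintype κ] [DecidableEq κ] {μ : Type} [Fintype μ] [DecidableEq μ]
  {X X' : M4} {k k' : ℕ} {τ : MT κ X} {τ' : MT κ X'}

/-! ### bands -/

theorem jm_cl (s : Option Bool) {d d' : ℝ} (h : d < d') : closure (Jm s d) ⊆ Jm s d' := by
  rcases s with _ | _ | _
  · refine (closure_minimal (t := Icc (1 - d) (3 + d)) (fun _ k => ?_) isClosed_Icc).trans fun _ k => ?_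
    · exact ⟨(jm_none.1 k).1.le, (jm_none.1 k).2.le⟩
    · exact jm_none.2 ⟨by linarith [k.1], by linarith [k.2]⟩
  · refine (closure_minimal (t := Iic (-1 + d)) (fun _ k => ?_) isClosed_Iic).trans fun _ k => ?_
    · exact (jm_in.1 k).le
    · exact jm_in.2 (by linarith [mem_Iic.1 k])
  · refine (closure_minimal (t := Ici (1 - d)) (fun _ k => ?_) isClosed_Ici).trans fun _ k => ?_
    · exact (jm_out.1 k).le
    · exact jm_out.2 (by linarith [mem_Ici.1 k])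

theorem jm_ord (s : Option Bool) (d : ℝ) : OrdConnected (Jm s d) := ⟨fun _ a _ b _ c => by
  rcases s with _ | _ | _
  · exact jm_none.2 ⟨(jm_none.1 a).1.trans_le c.1, c.2.trans_lt (jm_none.1 b).2⟩
  · exact jm_in.2 (c.2.trans_lt (jm_in.1 b))
  · exact jm_out.2 ((jm_out.1 a).trans_le c.1)⟩

/-- the chart of a band up to the margin `d` -/
def kd (b : NB κ X) (d : ℝ) : OpenPartialHomeomorph (b.e.A.Y.M × ℝ) X.M :=
  b.k.restrOpen (b.V d) (b.V_open d)

/-- the closed core with the margin `d` -/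
def Cd (b : NB κ X) (d : ℝ) : Set X.M := b.n.tm ⁻¹' closure (Jm b.s d)

section band
variable {b : NB κ X} {b' : NB κ X'} {d d' : ℝ}

theorem kd_src (h : d ≤ 1) : (kd b d).source = b.V d := inter_eq_right.2 (b.V_sub h)

theorem kd_tgt (h : d ≤ 1) : (kd b d).target = b.U d := Subset.antisymm
  (fun x hx => by have := NB.k_mem h (b := b) hx.2; rwa [b.k.right_inv hx.1] at this)
  fun x hx => ⟨b.U_sub h hx, NB.symm_mem h hx⟩

theorem kd_sm : ContMDiffOn (IC b.e.A.Y.I) X.I ∞ (kd b d) (kd b d).source := b.sm.mono fun _ h => h.1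

theorem kd_sm' : ContMDiffOn X.I (IC b.e.A.Y.I) ∞ (kd b d).symm (kd b d).target :=
  b.sm'.mono fun _ h => h.1

theorem cd_closed : IsClosed (Cd b d) := isClosed_closure.preimage b.n.cont

theorem cd_sub (h : d < d') : Cd b d ⊆ b.U d' := preimage_mono (jm_cl _ h)

theorem sub_cd : b.U d ⊆ Cd b d := preimage_mono subset_closure

theorem exists_k (h : d ≤ 1) {x : X.M} (hx : x ∈ b.U d) : ∃ z ∈ b.V d, b.k z = x :=
  ⟨_, NB.symm_mem h hx, b.k.right_inv (b.U_sub h hx)⟩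

theorem k_md {z : b.e.A.Y.M × ℝ} (h : z ∈ b.k.source) : MDifferentiableAt (IC b.e.A.Y.I) X.I b.k z :=
  ((b.sm _ h).contMDiffAt (b.k.open_source.mem_nhds h)).mdifferentiableAt (by simp)

/-- corresponding bands: the frames correspond -/
theorem cor_e {φ : X'.M → X.M} (h : b'.Cor b φ) (hφ : ∀ x, MDifferentiableAt X'.I X.I φ x)
    {e' : Option κ → VF X'.I X'.M} {e : Option κ → VF X.I X.M} {v : ℝ} (r' : b'.Rl e' v (1 / 2))
    (r : b.Rl e v (1 / 2)) {x : X'.M} (hx : x ∈ b'.U (1 / 2)) (a : Option κ) :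
    mfderiv X'.I X.I φ x (e' a x) = e a (φ x) := by
  obtain ⟨n, rfl, hn⟩ := h
  obtain ⟨z, hz, rfl⟩ := exists_k (by norm_num) hx
  have e1 : (n.k : _ → X.M) =ᶠ[𝓝 z] φ ∘ b'.k :=
    eventually_of_mem ((b'.V_open _).mem_nhds hz) fun y hy => hn y.1 y.2 hy.2
  have e2 := r a z hz
  rw [← r' a z hz, ← show n.k z = φ (b'.k z) from e1.self_of_nhds]
  refine Eq.trans ?_ e2
  exact (DFunLike.congr_fun (mfderiv_comp z (hφ _) (k_md (b'.V_sub (by norm_num) hz))) _).symm.trans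
    (DFunLike.congr_fun e1.mfderiv_eq _).symm

theorem cor_mem {φ : X'.M → X.M} (h : b'.Cor b φ) (hd : d ≤ 1 / 2) {x : X.M} (hx : x ∈ b.U d) :
    ∃ y ∈ b'.U d, φ y = x := by
  obtain ⟨n, rfl, hn⟩ := h
  obtain ⟨z, hz, rfl⟩ := exists_k (by linarith) hx
  exact ⟨_, NB.k_mem (b := b') (by linarith) hz, (hn z.1 z.2 (jm_mono _ hd hz.2)).symm⟩

/-- corresponding bands of one type: a field that is literal upstairs is literal downstairs -/
theorem cor_lit {φ : X'.M → X.M} (h : b'.Cor b φ) {ec' : EC (μ ⊕ μ) b'.e.eg} {cl' : ec'.L}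
    {ec : EC (μ ⊕ μ) b.e.eg} {cl : ec.L}
    (q : (⟨⟨_, ec'⟩, cl'⟩ : Ty κ L0 (μ ⊕ μ)) = ⟨⟨_, ec⟩, cl⟩) {m : M8 X.M (Option κ) (μ ⊕ μ)}
    (l : ∀ z ∈ b.V (1 / 2), m.p (b.k z) = (ec.m cl).p z.1 ∧ ∀ a, m.ρ a (b.k z) = (ec.m cl).ρ a z.1)
    {z} (hz : z ∈ b'.V (1 / 2)) :
    m.p (φ (b'.k z)) = (ec'.m cl').p z.1 ∧ ∀ a, m.ρ a (φ (b'.k z)) = (ec'.m cl').ρ a z.1 := by
  obtain ⟨n, rfl, hn⟩ := h
  cases q
  rw [← show n.k z = φ (b'.k z) from hn z.1 z.2 hz.2]
  exact l z hz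

end band

/-! ### geometry -/

theorem F_P (β : MB τ k) (t : Tk k) : (β.F t).P = β.B.P := funext₂ fun a b => funext fun x =>
  ((rFr_P _ _ a b x).trans (congrFun₂ (β.P t x) a b)).trans (rFr_P _ (β.fr 0) a b x).symm

theorem m_on {β : MB τ k} (c : MC μ β) : c.m.re.On X.I β.B.P univ := by
  have : β.B.P = fun a b x => fP (β.e 0) x a b := funext₂ fun a b => funext (rFr_P _ (β.fr 0) a b)
  rw [this]; exact c.mon.re

theorem m_on' {β : MB τ k} (c : MC μ β) (t : Tk k) : c.m.On X.I (fP (β.e t)) univ :=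
  c.mon.congr fun x _ => β.P t x

theorem cl_at {β : MB τ k} {c : MC μ β} {d} (h : c.Cl d) (t : Tk k) : Rp (β.e t) c.m d :=
  haveI := Sob92.scs (I := X.I) (M := X.M)
  Gm56.Rp.fam β.sm β.sp β.P h

variable {β' : MB τ' k'} {β : MB τ k} {φ : M4.Dif X' X} {r : τ'.N → τ.N → Prop} {t' : Tk k'} {t : Tk k}

theorem ld (φ : M4.Dif X' X) (x : X'.M) : IsLocalDiffeomorphAt X'.I X.I ∞ φ.φ x :=
  φ.φ.isLocalDiffeomorph x

theorem rotU_eq (φ : X'.M → X.M) : (fun x => Sw87.Mo.rotU φ (β'.e t') (β.e t) x) =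
    Met55.rotU (β'.F t').toPre (β.F t).toPre φ :=
  funext₃ fun x b a => (fM_apply (β'.e t') (fun b => pbv X'.I X.I φ (β.e t b)) x a b).symm

theorem F_vol (β : MB τ k) (t : Tk k) : (β.F t).IsVol := rFr_vol _ _

theorem B_o (β : MB τ k) (t : Tk k) : β.B.o = oc (β.F t).e (volF X.o (β.F t).e) := (β.o t).symm

/-- **an isometry of models is an equivalence of geometries** -/
theorem geq (h : ∀ x, Co (fun a => Dr59.mf X'.I X.I φ.φ x (β'.e t' a x)) (atx (β.e t) (φ.φ x))) :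
    GEq β'.B (β'.G t') β.B (β.G t) (oph φ)
      (fun x => Sw87.Mo.rotU φ.φ (β'.e t') (β.e t) x) fun _ => 1 := by
  have h1 : ContMDiffOn X'.I X.I ∞ (oph φ) (oph φ).source := φ.φ.contMDiff.contMDiffOn
  have h2 : ContMDiffOn X.I X'.I ∞ (oph φ).symm (oph φ).target := φ.φ.symm.contMDiff.contMDiffOn
  obtain ⟨k1, k2, k3, k4, k5⟩ := rot_spec (F_vol β' t') (F_vol β t) h1 h2 fun x _ => h x
  have k0 : Int54.SameOn (volF X'.o (β'.F t').e) (Dr59.pm X'.I X.I (oph φ) (volF X.o (β.F t).e))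
      (oph φ).source := by
    have a := (X'.ori.sameOn_volF (e := (β'.F t').e) (β'.sp t') univ).symm
    have b : Int54.SameOn X'.o (Dr59.pm X'.I X.I φ.φ X.o) univ := Int54.SameOn.symm φ.pos
    have c := (X.ori.sameOn_volF (e := (β.F t).e) (β.sp t) univ).pm (s := univ) (fun y _ => ld φ y)
      (mapsTo_univ _ _)
    exact (a.trans b).trans c
  have k6 := (Int54.geq_mu_o X.X.dim X'.X.dim (F_vol β t) (F_vol β' t')
    (X.ori.unit_vol (β.F t).toPre) (X'.ori.unit_vol (β'.F t').toPre) h1 k0 k2 k4).2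
  rw [rotU_eq]
  rw [← B_o, ← B_o] at k6
  rw [F_P] at k2 k3
  refine ⟨h1, h2, k1, contMDiffOn_const, k2, k3, k4, k5, k6, fun _ _ => ?_, fun _ _ => ?_,
    fun _ _ => rfl, fun x _ a => ?_⟩
  · exact (ContinuousLinearMap.comp_id _).trans (star_one (En L0))
  · exact (ContinuousLinearMap.id_comp _).trans (star_one (En L0))
  · simp [MB.G, Pre.D_def, Sob92.dv_const]

/-- on corresponding bands the rotation is the projector -/
theorem rotU_lit {x : X'.M} (h : ∀ a, mfderiv X'.I X.I φ.φ x (β'.e t' a x) = β.e t a (φ.φ x)) :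
    Sw87.Mo.rotU φ.φ (β'.e t') (β.e t) x = fP (β'.e t') x := by
  ext b a
  have : pbv X'.I X.I φ.φ (β.e t b) x = β'.e t' b x :=
    (ld_bij (ld φ x)).1 ((pbv_rel (ld φ x) _).trans (h b).symm)
  rw [Sw87.Mo.rotU, Matrix.of_apply, fT, this]
  exact (th_self _ _).trans (prj_symm _ _)

theorem mi_e (h : MI β' β φ r t' t) {i' i} (q : r i' i) (a : 1 < β'.v t' i') {x : X'.M}
    (hx : x ∈ (τ'.nb i').U (1 / 2)) (c : Option κ) :
    mfderiv X'.I X.I φ.φ x (β'.e t' c x) = β.e t c (φ.φ x) :=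
  cor_e (h.cor _ _ q).1 (fun x => (ld φ x).mdifferentiableAt (by simp)) (β'.lit t' i' a)
    (by have := (h.cor _ _ q).2; rw [MB.v] at this; rw [this]; exact β.lit t i (a.trans_eq this)) hx c

variable {c' : MC μ β'} {c : MC μ β} {γ : ∀ i, (τ'.nb i).e.A.Y.M → ℂ} {w : X'.M → Matrix μ μ ℂ}

/-- the geometric and the module part of an isomorphism of backgrounds -/
theorem mi0 (h : MI β' β φ r t' t) (q : MW c' c φ t' t γ w) {n' n : ℕ} (v' v)
    (ct' : Fin n' → Cut X'.M κ (μ ⊕ μ)) (ct : Fin n → Cut X.M κ (μ ⊕ μ)) :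
    MI0 (c'.bg t' v' ct') (c.bg t v ct) (oph φ) (fun x => Sw87.Mo.rotU φ.φ (β'.e t') (β.e t) x)
      fun x => rl (w x) :=
  Gm56.mi0_of_ci (m := c'.m) (m' := c.m) (geq h.co) (m_on c) rfl rfl q.ci

/-! ### E-EXU -/

theorem gau_pow {Y : M.Mf 3} {u : Y.M → ℂ} (hu : Gau Y.I u) (n : ℤ) : Gau Y.I fun y => u y ^ n := by
  refine ⟨fun y => ?_, fun y => by rw [norm_zpow, hu.2, one_zpow]⟩
  have h : u y ≠ 0 := fun h => by simpa [h] using hu.2 y
  have k : AnalyticAt ℂ (fun z : ℂ => z ^ n) (u y) := analyticAt_id.zpow h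
  exact ((k.contDiffAt (n := ∞)).restrict_scalars ℝ).contMDiffAt.comp y (hu.1 y)

theorem le_act (h : MI β' β φ r t' t) (hty : ∀ i' i, r i' i → c'.ty i' = c.ty i) {i'}
    (a : 1 < β'.v t' i') :
    LE c'.m ((c.m.comp φ.φ).rot (Sw87.Mo.rotU φ.φ (β'.e t') (β.e t))) ((τ'.nb i').U (1 / 2)) := by
  obtain ⟨i, q⟩ := h.l i' a
  intro x hx
  have e := rotU_lit (mi_e h q a hx)
  obtain ⟨z, hz, rfl⟩ := exists_k (by norm_num) hx
  have l := cor_lit (h.cor _ _ q).1 (hty _ _ q) (c.lit i) hz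
  have l' := c'.lit i' z hz
  refine ⟨Line51.rl_injective (l.1.trans l'.1.symm), ?_⟩
  have o := m_on' c' t'
  rw [← (o.pc _ trivial).rot_self (o.p4 _ trivial).pr.symm, ← e]
  exact congrArg (Lab56.rot _) (funext fun a => Line51.rl_injective ((l.2 a).trans (l'.2 a).symm))

variable (κ μ) in
/-- **E-EXU** -/
theorem exu : ExuStmt κ μ := by
  intro X X' τ τ' k k' β' β c' c φ r t' t d' d h hty hd' hd hp lg
  classical
  have := Sob92.scs (I := X'.I) (M := X'.M)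
  obtain ⟨u, hu⟩ := (Gm56.pb_iff_geq (geq h.co) (F_P _ _) (F_P _ _) isOpen_univ (fun _ _ => trivial)
    (cl_at hd' t') (cl_at hd t)).1 hp
  have h2 : (1 / 2 : ℝ) ≤ 1 := by norm_num
  obtain ⟨g, hg, hβ⟩ := Gm56.exists_gau (α := {i // 1 < β'.v t' i}) (P := fP (β'.e t')) (u := u) (m := c'.m)
    (m' := (c.m.comp φ.φ).rot (Sw87.Mo.rotU φ.φ (β'.e t') (β.e t)))
    (Y := fun i => (τ'.nb i).e.A.Y) (J := fun i => Jm (τ'.nb i).s (1 / 2))
    (Ψ := fun i => kd (τ'.nb i) (1 / 2)) (C := ⋃ i : {i // 1 < β'.v t' i}, Cd (τ'.nb i) (1 / 4))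
    (fun _ => jm_open _ _) (fun _ => jm_ord _ _) (fun i => kd_src (b := τ'.nb i) h2) (fun i => kd_sm (b := τ'.nb i))
    (fun i => kd_sm' (b := τ'.nb i))
    (fun i j q => (τ'.dj (Subtype.coe_ne_coe.2 q)).mono (fun _ k => k.1) fun _ k => k.1)
    (isClosed_iUnion_of_finite fun _ => cd_closed)
    (iUnion_mono fun _ => (cd_sub (by norm_num)).trans (kd_tgt h2).superset)
    (fun _ => (m_on' c' t').mono (subset_univ _))
    (fun i => (le_act h hty i.2).mono (kd_tgt h2).subset)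
    fun _ => hu.mono (subset_univ _)
  choose n χ h3 h4 using fun i : {i // 1 < β'.v t' i} =>
    (lg i).2 (g i) ⟨fun y => (hg i y).1, fun y => (hg i y).2⟩
  obtain ⟨θ, s1, -, s2⟩ := hβ (fun i y => -χ i y) fun i y => (h3 i y).neg
  refine ⟨fun i y => (c'.ec i).u y ^ (if a : 1 < β'.v t' i then n ⟨i, a⟩ else 0), _,
    ⟨Gm56.CI.exp hu fun x _ => s1 x, fun i => gau_pow (lg i).1 _, fun i a z hz => ?_⟩, fun i => ⟨_, rfl⟩⟩
  have := s2 ⟨i, a⟩ z ((kd_src h2).superset ⟨trivial, jm_mono _ (by norm_num) hz.2⟩)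
    (mem_iUnion.2 ⟨⟨i, a⟩, sub_cd (NB.k_mem (by norm_num) hz)⟩)
  refine this.trans ?_
  rw [dif_pos a, h4, mul_assoc, ← Complex.exp_add]
  simp
  rfl

end Crest.Agent.X212.Emo56
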