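import Crest.Agent.X212.Emo56.Iso

/-!
# Row 212, GEO engine (helper56): transport of masses and test spinors (E-TRP)
-/

set_option autoImplicit false
set_option linter.unusedSectionVars false
noncomputable section
open scoped Manifold ContDiff Topology InnerProductSpace
open MeasureTheory Set Function Filter

namespace Crest.Agent.X212.Emo56
open An Cyf70 Sw Flo2 Geo28 Met55 Sw87.Mo
open Line51 (iL rl)
open Gm56 (alp MI0 p8_of)
open Wz78 (SA)
open Eqv71 (rot4 sum_rot4)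
open M (Mf)

section mi
variable {κ lam ν : Type} [Fintype κ] [Fintype lam] [Fintype ν] [DecidableEq ν] {X X' : Mf 4}
  {nc nc' : ℕ} {b : Bg X.I X.M κ lam ν nc} {b' : Bg X'.I X'.M κ lam ν nc'}
  {φ : OpenPartialHomeomorph X.M X'.M} {U : X.M → Option κ → Option κ → ℝ} {u : X.M → En ν} {x : X.M}
  (h : MI0 b b' φ U u) (hb : b.OK) (hb' : b'.OK) (hx : x ∈ φ.source)
include h hb hb' hx

theorem vol_u : b'.vol (φ x) * u x = u x * b.vol x := by
  obtain ⟨_, g⟩ := h.g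
  have h1 : ∀ i j k l, b'.m.ρ i (φ x) * b'.m.ρ j (φ x) * b'.m.ρ k (φ x) * b'.m.ρ l (φ x) * u x =
      rot4 (U x) (fun i j k l => u x * (b.m.ρ i x * b.m.ρ j x * b.m.ρ k x * b.m.ρ l x)) i j k l := by
    intro i j k l
    rw [mul_assoc, h.ρ x hx, ← mul_assoc, mul_assoc _ _ (u x), h.ρ x hx, ← mul_assoc, mul_assoc _ _ (u x),
      h.ρ x hx, ← mul_assoc, h.ρ x hx]
    simp only [mul_assoc]
    simp only [Finset.sum_mul_sum]
    simp only [Finset.mul_sum]
    simp only [rot4, smul_mul_smul_comm, mul_assoc]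
    simp only [mul_smul_comm]
  simp only [Bg.vol, smul_mul_assoc, Finset.sum_mul, h1, mul_smul_comm, Finset.mul_sum]
  rw [sum_rot4]
  simp only [← ((Pj41.geq_be g hx).symm hb.B hb'.B).o]

theorem pp_u : b'.pp (φ x) * u x = u x * b.pp x := by
  simp only [Bg.pp, smul_mul_assoc, mul_smul_comm, sub_mul, mul_sub, vol_u h hb hb' hx, h.pu hb hx,
    h.up hb hx]

theorem pm_u : b'.pm (φ x) * u x = u x * b.pm x := by
  simp only [Bg.pm, smul_mul_assoc, mul_smul_comm, add_mul, mul_add, vol_u h hb hb' hx, h.pu hb hx,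
    h.up hb hx]

theorem sa_alp (a : Option κ) : SA X.I (alp b b' φ U u a) x := by
  obtain ⟨_, g⟩ := h.g
  have su : SA X.I u x := (h.su x hx).contMDiffAt (φ.open_source.mem_nhds hx)
  exact (SA.clm Wz78.trE (SA.mul contMDiffAt_const ((Eqv71.sa_trn su).mul ((((Wz78.gfrm hb.G).sD a su).add
    (((Pj41.geq_rot g).sa_pb hx (fun j => hb'.cc.sm j _) a).mul su)).sub
      (su.mul (hb.cc.sm a x)))))).neg.div_const _

end mi

theorem tst_u {κ lam ν : Type} [Fintype κ] [Fintype lam] [Fintype ν] [DecidableEq ν] {X X' : Mf 4}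
    {nc nc' : ℕ} {b : Bg X.I X.M κ lam ν nc} {b' : Bg X'.I X'.M κ lam ν nc'}
    {φ : OpenPartialHomeomorph X.M X'.M} {U : X.M → Option κ → Option κ → ℝ} {u : X.M → En ν}
    (h : MI0 b b' φ U u) (hb : b.OK) (hb' : b'.OK) (hs : ∀ x, x ∈ φ.source) (j : Fin nc)
    {η η' : R4 → Eu ν} (hη : b.Tst (b.ct j).Ξ η) (q : b.TI u (alp b b' φ U u) j η η') :
    b'.Tst (fun y => φ ((b.ct j).Ξ y)) η' := by
  have C := hb.ct j
  obtain ⟨R, hR⟩ := Kop92.exists_sp C.cρ
  rw [show η' = _ from funext q]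
  refine ⟨?_, hη.cpt.mono fun y hy e => hy (by simp [e, cs]), fun y => ?_⟩
  · have a1 : ContDiff ℝ ∞ fun y => u ((b.ct j).Ξ y) := contMDiff_iff_contDiff.1 fun y =>
      ((h.su _ (hs _)).contMDiffAt (φ.open_source.mem_nhds (hs _))).comp y (C.sm y)
    have a2 : ∀ k, ContDiff ℝ ∞ fun y => alp b b' φ U u k ((b.ct j).Ξ y) := fun k =>
      contMDiff_iff_contDiff.1 fun y => (sa_alp h hb hb' (hs _) k).comp y (C.sm y)
    have a3 : ContDiff ℝ ∞ (b.ta j ⟨alp b b' φ U u, 0⟩) :=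
      ((innerSL ℝ).contDiff.comp (contDiff_euclidean.2 a2)).clm_comp C.sθ
    have a4 : ContDiff ℝ ∞ fun y => Complex.exp
        (-(Kop92.K (leb R4) (b.ct j).ρ (b.ta j ⟨alp b b' φ U u, 0⟩) y * Complex.I)) :=
      ((Complex.ofRealCLM.contDiff.comp (Kop92.contDiff_K (n := ⊤) C.sρ hR a3)).mul
        contDiff_const).neg.cexp
    exact a1.clm_apply (((Complex.reCLM.contDiff.comp a4).smul hη.sm).add
      ((Complex.imCLM.contDiff.comp a4).smul (b.m.J.contDiff.comp hη.sm)))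
  · rw [← mul_apply_eq_comp, pp_u h hb hb' (hs _), mul_apply_eq_comp]
    exact congrArg _ ((Eqv71.map_cs (p8_of hb _).J_pp.symm _ _).trans (congrArg _ (hη.pos y)))

variable (κ : Type) [Fintype κ] [DecidableEq κ] (μ : Type) [Fintype μ] [DecidableEq μ]

/-- **E-TRP** -/
theorem trp (hP : PzStmt κ μ) : TrpStmt κ μ := by
  intro X X' τ τ' k k' β' β c' c φ r t' t γ w h q
  have hb := (hP.ok c' t').1.bg
  have hb' := (hP.ok c t).1.bg
  have i : MI0 (c'.P t').bg (c.P t).bg _ _ _ := mi0 h q _ _ _ _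
  have p := fun x => p8_of hb x
  have e0 : ∀ x, (c'.P t').bg.pm x * c'.mc t' x * (c'.P t').bg.pp x = c'.mc t' x := c'.mp t'
  have e1 : ∀ x, trn (rl (w x)) * (c.P t).bg.pp (φ.φ x) = (c'.P t').bg.pp x * trn (rl (w x)) := fun x =>
    Eqv71.trn_intertw' (pp_u i hb hb' (mem_univ x)).symm (p x).pp_s (p8_of hb' _).pp_s
  have e2 : ∀ x, c'.mc t' x * (c'.P t').bg.m.p x = c'.mc t' x := fun x => by
    have : (c'.P t').bg.pp x * (c'.P t').bg.m.p x = (c'.P t').bg.pp x := by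
      rw [Bg.pp, smul_mul_assoc, sub_mul, (p x).p_p]
      exact congrArg (fun z => (1 / 2 : ℝ) • (_ - z)) (p x).om_p
    rw [← e0 x, mul_assoc, this]
  refine ⟨fun x => rl (w (φ.φ.symm x)) * c'.mc t' (φ.φ.symm x) * trn (rl (w (φ.φ.symm x))),
    fun j y => rl (w (τ'.bx (j.cast h.nc) y)) (cs (iL μ) (Complex.exp (-(Kop92.K (leb R4) rho0
      ((c'.P t').bg.ta (j.cast h.nc) ⟨alp (c'.P t').bg (c.P t).bg (oph φ)
        (fun x => Sw87.Mo.rotU φ.φ (β'.e t') (β.e t) x) fun x => rl (w x), 0⟩) y * Complex.I)))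
      (c'.η t' (j.cast h.nc) y)), ⟨fun x => ?_, fun j y => rfl⟩, fun x => ?_, fun x => ?_, fun x => ?_,
    fun j a x hx => ?_, fun j => ?_⟩
  · rw [φ.φ.symm_apply_apply, mul_assoc, mul_assoc]
    exact congrArg _ ((congrArg _ (i.uu x trivial)).trans (e2 x))
  · have s : SA X'.I (fun x => rl (w x)) (φ.φ.symm x) := (q.ci.re (mem_univ _)).1
    exact ((s.mul (c'.smc.sm (mem_univ t') _)).mul (Eqv71.sa_trn s)).comp x (φ.φ.symm.contMDiff x)
  · have j1 : rl (w (φ.φ.symm x)) * iL μ = iL μ * _ := Line51.rl_comp_iL _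
    have j2 : trn (rl (w (φ.φ.symm x))) * iL μ = iL μ * _ :=
      Eqv71.trn_intertw j1 Line51.iL_skw Line51.iL_skw
    rw [← mul_assoc, ← mul_assoc, ← j1, mul_assoc _ (iL μ), c'.mJ, mul_assoc, mul_assoc, ← j2]
    simp only [mul_assoc]
  · obtain ⟨y, rfl⟩ : ∃ y, φ.φ y = x := ⟨_, φ.φ.apply_symm_apply x⟩
    simp only [φ.φ.symm_apply_apply]
    have e3 : (c.P t).bg.pm (φ.φ y) * rl (w y) = rl (w y) * (c'.P t').bg.pm y :=
      (pm_u i hb hb' (mem_univ y) :)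
    have e4 := e0 y
    have e5 := e1 y
    change (c.P t).bg.pm (φ.φ y) * _ * (c.P t).bg.pp (φ.φ y) = _
    generalize (c.P t).bg.pm (φ.φ y) = a₁, (c.P t).bg.pp (φ.φ y) = a₂, (c'.P t').bg.pm y = a₃,
      (c'.P t').bg.pp y = a₄, rl (w y) = a₅ at *
    calc _ = a₁ * a₅ * c'.mc t' y * (trn a₅ * a₂) := by simp only [mul_assoc]
      _ = a₅ * (a₃ * c'.mc t' y * a₄) * trn a₅ := by rw [e3, e5]; simp only [mul_assoc]
      _ = _ := by rw [e4]
  · obtain ⟨j', g⟩ := h.r' j a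
    obtain ⟨y, hy, rfl⟩ := cor_mem (h.cor _ _ g).1 (by norm_num) hx
    simp only [φ.φ.symm_apply_apply, c'.m0 t' j' (a.trans_eq (h.cor _ _ g).2.symm) y hy, mul_zero,
      zero_mul]
  · have z := c'.tst t' (j.cast h.nc)
    have := tst_u i hb hb' (fun _ => trivial) (j.cast h.nc) ⟨z.1, z.2, z.3⟩ fun _ => rfl
    rw [show (τ.bx j : R4 → X.M) = fun y => φ.φ (τ'.bx (j.cast h.nc) y) from funext (h.bx (j.cast h.nc))]
    exact ⟨this.1, this.2, this.3⟩

end Crest.Agent.X212.Emo56
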